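import Vale.Agent.P074.H109.Coupling

open MeasureTheory Set Metric
open scoped ENNReal NNReal RealInnerProductSpace

namespace Vale.Agent.P074.H109

variable {d : ℕ}

/-- The dual value is Lipschitz in the target with respect to every coupling. -/
theorem dual_lip {R M : ℝ} (hR : 0 ≤ R) (hM : 0 ≤ M) {ς : Measure (E d)}
    [IsProbabilityMeasure ς] (hς : ς (closedBall 0 R)ᶜ = 0) {π : Measure (E d × E d)}
    [IsProbabilityMeasure π] (hπ : π (closedBall 0 M ×ˢ closedBall 0 M)ᶜ = 0) :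
    dualVal R M ς (π.map Prod.snd) ≤ dualVal R M ς (π.map Prod.fst) +
        R * ∫ z, ‖z.1 - z.2‖ ∂π ∧
    dualVal R M ς (π.map Prod.fst) ≤ dualVal R M ς (π.map Prod.snd) +
        R * ∫ z, ‖z.1 - z.2‖ ∂π := by
  have p1 : IsProbabilityMeasure (π.map Prod.fst) :=
    Measure.isProbabilityMeasure_map measurable_fst.aemeasurable
  have p2 : IsProbabilityMeasure (π.map Prod.snd) :=
    Measure.isProbabilityMeasure_map measurable_snd.aemeasurable
  have hBm : MeasurableSet (closedBall (0 : E d) M)ᶜ := isClosed_closedBall.measurableSet.compl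
  have s1 : (π.map Prod.fst) (closedBall 0 M)ᶜ = 0 := by
    rw [Measure.map_apply measurable_fst hBm]
    exact measure_mono_null (fun z hz => fun h => hz h.1) hπ
  have s2 : (π.map Prod.snd) (closedBall 0 M)ᶜ = 0 := by
    rw [Measure.map_apply measurable_snd hBm]
    exact measure_mono_null (fun z hz => fun h => hz h.2) hπ
  constructor
  · rw [← sub_le_iff_le_add]
    apply le_dualVal
    intro ψ hψ
    have h1 := dualVal_le hR hM hς s2 hψ
    have h2 := (lip_coupling hR hπ hψ).1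
    unfold dualFun at h1 ⊢
    linarith only [h1, h2]
  · rw [← sub_le_iff_le_add]
    apply le_dualVal
    intro ψ hψ
    have h1 := dualVal_le hR hM hς s1 hψ
    have h2 := (lip_coupling hR hπ hψ).2
    unfold dualFun at h1 ⊢
    linarith only [h1, h2]

/-- The map which keeps the first point of a pair unless the two points are close. -/
noncomputable def mid (h : ℝ) (z : E d × E d) : E d := if ‖z.1 - z.2‖ ≤ h then z.2 else z.1

theorem measurable_mid (h : ℝ) : Measurable (mid (d := d) h) := by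
  unfold mid
  apply Measurable.ite _ measurable_snd measurable_fst
  exact measurableSet_le (measurable_fst.sub measurable_snd).norm measurable_const

theorem mid_small {p h : ℝ} (hp2 : p ≤ 2) (h0 : 0 < h) (z : E d × E d) :
    ‖z.1 - mid h z‖ ^ 2 ≤ h ^ (2 - p) * ‖z.1 - z.2‖ ^ p := by
  unfold mid
  by_cases hz : ‖z.1 - z.2‖ ≤ h
  · rw [if_pos hz]
    rcases (norm_nonneg (z.1 - z.2)).eq_or_lt with h1 | h1
    · rw [← h1]
      simp only [ne_eq, OfNat.ofNat_ne_zero, not_false_eq_true, zero_pow]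
      have := Real.rpow_nonneg h0.le (2 - p)
      have := Real.rpow_nonneg (le_refl (0 : ℝ)) p
      positivity
    · have e : ‖z.1 - z.2‖ ^ 2 = ‖z.1 - z.2‖ ^ (2 - p) * ‖z.1 - z.2‖ ^ p := by
        rw [← Real.rpow_add h1, sub_add_cancel, Real.rpow_two]
      rw [e]
      apply mul_le_mul_of_nonneg_right _ (Real.rpow_nonneg h1.le _)
      exact Real.rpow_le_rpow h1.le hz (by linarith only [hp2])
  · rw [if_neg hz, sub_self, norm_zero]
    have h1 := Real.rpow_nonneg h0.le (2 - p)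
    have h2 := Real.rpow_nonneg (norm_nonneg (z.1 - z.2)) p
    have := mul_nonneg h1 h2
    simpa using this

theorem mid_large {p h : ℝ} (hp1 : 1 ≤ p) (h0 : 0 < h) (z : E d × E d) :
    ‖mid h z - z.2‖ ≤ h ^ (1 - p) * ‖z.1 - z.2‖ ^ p := by
  unfold mid
  by_cases hz : ‖z.1 - z.2‖ ≤ h
  · rw [if_pos hz, sub_self, norm_zero]
    exact mul_nonneg (Real.rpow_nonneg h0.le _) (Real.rpow_nonneg (norm_nonneg _) _)
  · rw [if_neg hz]
    have h1 : h < ‖z.1 - z.2‖ := not_le.1 hz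
    have h2 : 0 < ‖z.1 - z.2‖ := h0.trans h1
    have e : ‖z.1 - z.2‖ = ‖z.1 - z.2‖ ^ (1 - p) * ‖z.1 - z.2‖ ^ p := by
      rw [← Real.rpow_add h2, sub_add_cancel, Real.rpow_one]
    calc ‖z.1 - z.2‖ = ‖z.1 - z.2‖ ^ (1 - p) * ‖z.1 - z.2‖ ^ p := e
      _ ≤ _ := by
        apply mul_le_mul_of_nonneg_right _ (Real.rpow_nonneg h2.le _)
        exact Real.rpow_le_rpow_of_nonpos h0 h1.le (by linarith only [hp1])

/-- The main inequality with both small and large displacements. -/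
theorem mixed_ineq {K : Set (E d)} (hK : IsCompact K) (hKi : (interior K).Nonempty)
    {R M C : ℝ} (hR : 0 ≤ R) (hM : 0 ≤ M) (hC : 0 ≤ C) (hKR : K ⊆ closedBall 0 R)
    (hmain : ∀ σ : E d → ℝ, GoodDensity K σ →
      ∀ π : Measure (E d × E d), IsProbabilityMeasure π →
        π (closedBall 0 M ×ˢ closedBall 0 M)ᶜ = 0 →
        (dualVal R M (src K σ) (π.map Prod.snd) - dualVal R M (src K σ) (π.map Prod.fst))
          - (dualVal R M (unif K) (π.map Prod.snd) - dualVal R M (unif K) (π.map Prod.fst))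
        ≤ C * √(∫ x, (σ x - 1) ^ 2 ∂(unif K)) * √(∫ z, ‖z.1 - z.2‖ ^ 2 ∂π))
    {p h : ℝ} (hp1 : 1 ≤ p) (hp2 : p ≤ 2) (h0 : 0 < h)
    {π : Measure (E d × E d)} (hπp : IsProbabilityMeasure π)
    (hπ : π (closedBall 0 M ×ˢ closedBall 0 M)ᶜ = 0) (σ : E d → ℝ) (hσ : GoodDensity K σ) :
    (dualVal R M (src K σ) (π.map Prod.snd) - dualVal R M (src K σ) (π.map Prod.fst))
      - (dualVal R M (unif K) (π.map Prod.snd) - dualVal R M (unif K) (π.map Prod.fst))
    ≤ C * √(∫ x, (σ x - 1) ^ 2 ∂(unif K)) *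
        √(h ^ (2 - p) * ∫ z, ‖z.1 - z.2‖ ^ p ∂π) +
      2 * R * (h ^ (1 - p) * ∫ z, ‖z.1 - z.2‖ ^ p ∂π) := by
  have hprob := Final.unif_prob hK hKi
  have hς : (unif K) (closedBall 0 R)ᶜ = 0 := unif_ball_compl hK hKR
  have hprobσ : IsProbabilityMeasure (src K σ) := isProbabilityMeasure_src hK hKi hσ
  have hςσ : (src K σ) (closedBall 0 R)ᶜ = 0 :=
    measure_mono_null (compl_subset_compl.2 hKR) (src_compl hK)
  have hm := measurable_mid (d := d) h
  have hfm : Measurable fun z : E d × E d => (z.1, mid h z) := measurable_fst.prodMk hm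
  have hgm : Measurable fun z : E d × E d => (mid h z, z.2) := hm.prodMk measurable_snd
  set πs := π.map (fun z : E d × E d => (z.1, mid h z)) with hπs
  set πl := π.map (fun z : E d × E d => (mid h z, z.2)) with hπl
  have ps : IsProbabilityMeasure πs := Measure.isProbabilityMeasure_map hfm.aemeasurable
  have pl : IsProbabilityMeasure πl := Measure.isProbabilityMeasure_map hgm.aemeasurable
  have hBB : MeasurableSet (closedBall (0 : E d) M ×ˢ closedBall (0 : E d) M)ᶜ :=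
    (measurableSet_closedBall.prod measurableSet_closedBall).compl
  have hmidmem : ∀ z : E d × E d, z ∈ closedBall (0 : E d) M ×ˢ closedBall (0 : E d) M →
      mid h z ∈ closedBall (0 : E d) M := by
    intro z hz
    unfold mid
    split_ifs
    · exact hz.2
    · exact hz.1
  have ss : πs (closedBall 0 M ×ˢ closedBall 0 M)ᶜ = 0 := by
    rw [hπs, Measure.map_apply hfm hBB]
    apply measure_mono_null _ hπ
    intro z hz hz'
    exact hz ⟨hz'.1, hmidmem z hz'⟩
  have sl : πl (closedBall 0 M ×ˢ closedBall 0 M)ᶜ = 0 := by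
    rw [hπl, Measure.map_apply hgm hBB]
    apply measure_mono_null _ hπ
    intro z hz hz'
    exact hz ⟨hmidmem z hz', hz'.2⟩
  have e1 : πs.map Prod.fst = π.map Prod.fst := by
    rw [hπs, Measure.map_map measurable_fst hfm]; rfl
  have e2 : πs.map Prod.snd = πl.map Prod.fst := by
    rw [hπs, hπl, Measure.map_map measurable_snd hfm, Measure.map_map measurable_fst hgm]; rfl
  have e3 : πl.map Prod.snd = π.map Prod.snd := by
    rw [hπl, Measure.map_map measurable_snd hgm]; rfl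
  have h1 := hmain σ hσ πs ps ss
  have h2 := (dual_lip hR hM hςσ sl).1
  have h3 := (dual_lip hR hM hς sl).2
  have hip : Integrable (fun z : E d × E d => ‖z.1 - z.2‖ ^ p) π := by
    apply integrable_coupling hπ
      ((measurable_fst.sub measurable_snd).norm.pow_const p) (C := (M + M) ^ p)
    intro z hz1 hz2
    rw [abs_of_nonneg (Real.rpow_nonneg (norm_nonneg _) _)]
    exact Real.rpow_le_rpow (norm_nonneg _)
      (le_trans (norm_sub_le _ _) (add_le_add hz1 hz2)) (by linarith only [hp1])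
  have w1 : ∫ z, ‖z.1 - z.2‖ ^ 2 ∂πs ≤ h ^ (2 - p) * ∫ z, ‖z.1 - z.2‖ ^ p ∂π := by
    rw [hπs, integral_map hfm.aemeasurable (by fun_prop), ← integral_const_mul]
    apply integral_mono_of_nonneg (ae_of_all _ fun z => sq_nonneg _) (hip.const_mul _)
    exact ae_of_all _ fun z => mid_small hp2 h0 z
  have w2 : ∫ z, ‖z.1 - z.2‖ ∂πl ≤ h ^ (1 - p) * ∫ z, ‖z.1 - z.2‖ ^ p ∂π := by
    rw [hπl, integral_map hgm.aemeasurable (by fun_prop), ← integral_const_mul]
    apply integral_mono_of_nonneg (ae_of_all _ fun z => norm_nonneg _) (hip.const_mul _)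
    exact ae_of_all _ fun z => mid_large hp1 h0 z
  rw [e1, e2] at h1
  rw [e3] at h2 h3
  have h4 : C * √(∫ x, (σ x - 1) ^ 2 ∂(unif K)) * √(∫ z, ‖z.1 - z.2‖ ^ 2 ∂πs) ≤
      C * √(∫ x, (σ x - 1) ^ 2 ∂(unif K)) * √(h ^ (2 - p) * ∫ z, ‖z.1 - z.2‖ ^ p ∂π) :=
    mul_le_mul_of_nonneg_left (Real.sqrt_le_sqrt w1) (mul_nonneg hC (Real.sqrt_nonneg _))
  have h5 := mul_le_mul_of_nonneg_left w2 hR
  linarith only [h1, h2, h3, h4, h5]

/-- The perturbation inequality for the dual values, written out, with an additive error. -/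
theorem chain_add {K : Set (E d)} {R M : ℝ} (hM : 0 ≤ M) (hK : IsCompact K)
    (hKi : (interior K).Nonempty) {C : ℝ}
    {T₀ T₁ : E d → E d} (hT₀ : Measurable T₀) (hT₁ : Measurable T₁)
    (hT₀M : ∀ᵐ x ∂(unif K), T₀ x ∈ closedBall (0 : E d) M)
    (hT₁M : ∀ᵐ x ∂(unif K), T₁ x ∈ closedBall (0 : E d) M)
    {ψ₀ ψ₁ : E d → ℝ} (hψ₀ : LipschitzWith R.toNNReal ψ₀) (hψ₁ : LipschitzWith R.toNNReal ψ₁)
    (he₀ : ∀ᵐ x ∂(unif K), conj M ψ₀ x + ψ₀ (T₀ x) = inner ℝ x (T₀ x))
    (he₁ : ∀ᵐ x ∂(unif K), conj M ψ₁ x + ψ₁ (T₁ x) = inner ℝ x (T₁ x))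
    {W A : ℝ}
    (hmain : ∀ σ : E d → ℝ, GoodDensity K σ →
      (dualVal R M (src K σ) ((unif K).map T₁) - dualVal R M (src K σ) ((unif K).map T₀))
        - (dualVal R M (unif K) ((unif K).map T₁) - dualVal R M (unif K) ((unif K).map T₀))
      ≤ C * √(∫ x, (σ x - 1) ^ 2 ∂(unif K)) * √W + A)
    {u : E d} {G : E d → ℝ}
    (hGm : Measurable G) (hG0 : ∀ x, 0 ≤ G x) (hG2 : ∀ x, G x ≤ 2 * M)
    (hGs : ∀ x, G x ≠ 0 → x ∈ K ∧ x + u ∈ K) {s : ℝ} (hs0 : 0 < s)
    (hsG : ∀ x, s * G x ≤ 1 / 2) :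
    s * ((∫ x, inner ℝ u (T₁ x) * G x ∂(unif K)) -
        ∫ x, (conj M ψ₀ (x + u) - conj M ψ₀ x) * G x ∂(unif K)) ≤
      C * √(∫ x, ((1 - s * G x + s * G (x - u)) - 1) ^ 2 ∂(unif K)) * √W + A := by
  have hprob := Final.unif_prob hK hKi
  have hGB : ∀ x, |G x| ≤ 2 * M := fun x => by rw [abs_of_nonneg (hG0 x)]; exact hG2 x
  have hsG0 : ∀ x, 0 ≤ s * G x := fun x => mul_nonneg hs0.le (hG0 x)
  set σ : E d → ℝ := fun x => 1 - s * G x + s * G (x - u) with hσ
  have hσm : Measurable σ :=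
    (measurable_const.sub (hGm.const_mul s)).add ((hGm.comp (measurable_sub_const u)).const_mul s)
  have hgood : GoodDensity K σ := by
    refine ⟨hσm, ?_, ?_, ?_⟩
    · intro x
      have h1 := hsG x
      have h2 := hsG0 (x - u)
      show 1 / 2 ≤ 1 - s * G x + s * G (x - u)
      linarith
    · intro x
      have h1 := hsG0 x
      have h2 := hsG (x - u)
      show 1 - s * G x + s * G (x - u) ≤ 3 / 2
      linarith
    · have h1 := Final.integral_sigma hK hKi u hGm hGB hGs s (c := fun _ => 1) continuous_const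
      simp only [mul_one, sub_self, zero_mul, integral_zero, mul_zero, add_zero,
        integral_const, probReal_univ, smul_eq_mul] at h1
      exact h1
  have hm := hmain σ hgood
  have hsG1 : ∀ x, s * G x ≤ 1 := fun x => (hsG x).trans (by norm_num)
  have LB1 : (∫ x, inner ℝ x (T₁ x) ∂(unif K)) + s * (∫ x, inner ℝ u (T₁ x) * G x ∂(unif K)) ≤
      dualVal R M (src K σ) ((unif K).map T₁) := by
    apply le_csInf
    · exact ⟨_, fun _ => 0, LipschitzWith.const' 0, rfl⟩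
    · rintro _ ⟨χ, hχ, rfl⟩
      exact Final.lower_bound hM hK hKi u hGm hGB hG0 hGs hs0.le hsG1 hT₁ hT₁M hχ.continuous
  have UB1 := Final.dualVal_unif_le (R := R) hM hK hKi hT₁ hT₁M hψ₁ he₁
  have LB0 := Final.le_dualVal_unif (R := R) hM hK hKi hT₀ hT₀M
  have hc₀ := Final.conj_continuous hM hψ₀.continuous
  have UB0 : dualVal R M (src K σ) ((unif K).map T₀) ≤ (∫ x, inner ℝ x (T₀ x) ∂(unif K)) +
      s * ∫ x, (conj M ψ₀ (x + u) - conj M ψ₀ x) * G x ∂(unif K) := by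
    apply csInf_le
    · refine ⟨(∫ x, inner ℝ x (T₀ x) ∂(unif K)) +
        s * (∫ x, inner ℝ u (T₀ x) * G x ∂(unif K)), ?_⟩
      rintro _ ⟨χ, hχ, rfl⟩
      exact Final.lower_bound hM hK hKi u hGm hGB hG0 hGs hs0.le hsG1 hT₀ hT₀M hχ.continuous
    · refine ⟨ψ₀, hψ₀, ?_⟩
      have hσ0 : ∀ x, 0 ≤ σ x := fun x => le_trans (by norm_num) (hgood.lower x)
      rw [Final.dualFun_src hσm hσ0 hT₀ hψ₀.continuous,
        Final.integral_sigma hK hKi u hGm hGB hGs s hc₀]
      have : (∫ x, inner ℝ x (T₀ x) ∂(unif K)) =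
          (∫ x, conj M ψ₀ x ∂(unif K)) + ∫ x, ψ₀ (T₀ x) ∂(unif K) := by
        rw [← integral_add (Final.integrable_cont hK hKi hc₀)
          (Final.integrable_comp hK hKi hT₀ hT₀M hψ₀.continuous)]
        apply integral_congr_ae
        filter_upwards [he₀] with x hx using hx.symm
      rw [this]
      ring
  rw [mul_sub]
  linarith only [hm, LB1, UB1, LB0, UB0]

/-- The algebra of the final step, with an additive error. -/
theorem algebra_add {s h P C W S F J₀ J₁ q A : ℝ} (hs0 : 0 < s) (h0 : 0 < h) (hC : 0 ≤ C)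
    (hW : 0 ≤ W) (hS : 0 ≤ S) (hJ : h * S ≤ J₁ - J₀) (hF : F ≤ J₀ + P * h ^ 2)
    (hchain : s * (J₁ - F) ≤ C * √q * √W + A) (hq : q ≤ 4 * s ^ 2 * S) :
    S ≤ 2 * (P * h) + 2 * (A / (s * h)) + 4 * C ^ 2 * W / h ^ 2 := by
  have h1 := Final.algebra_step (s := s) (h := h) (P := P + A / (s * h ^ 2)) (C := C) (W := W)
    (S := S) (g := (P + A / (s * h ^ 2)) * h) (F := F + A / s) (J₀ := J₀) (J₁ := J₁) (q := q)
    hs0 h0 hC hW hS hJ
    (by
      have e : (P + A / (s * h ^ 2)) * h ^ 2 = P * h ^ 2 + A / s := by field_simp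
      rw [e]; linarith only [hF])
    (by
      have e : s * (J₁ - (F + A / s)) = s * (J₁ - F) - A := by field_simp; ring
      rw [e]; linarith only [hchain])
    hq rfl
  have e : 2 * ((P + A / (s * h ^ 2)) * h) = 2 * (P * h) + 2 * (A / (s * h)) := by
    field_simp
  rw [e] at h1
  exact h1

/-- The final step in one direction, with an additive error. -/
theorem dir_bound_add {K : Set (E d)} {R M : ℝ} (hM : 0 ≤ M) (hK : IsCompact K)
    (hKc : Convex ℝ K)
    (hKi : (interior K).Nonempty) {x0 : E d} {r : ℝ} (hr : 0 < r) (hb : closedBall x0 r ⊆ K)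
    {C : ℝ} (hC : 0 ≤ C)
    {T₀ T₁ : E d → E d} (hT₀ : Measurable T₀) (hT₁ : Measurable T₁)
    (hT₀M : ∀ᵐ x ∂(unif K), T₀ x ∈ closedBall (0 : E d) M)
    (hT₁M : ∀ᵐ x ∂(unif K), T₁ x ∈ closedBall (0 : E d) M)
    {ψ₀ ψ₁ : E d → ℝ} (hψ₀ : LipschitzWith R.toNNReal ψ₀) (hψ₁ : LipschitzWith R.toNNReal ψ₁)
    (he₀ : ∀ᵐ x ∂(unif K), conj M ψ₀ x + ψ₀ (T₀ x) = inner ℝ x (T₀ x))
    (he₁ : ∀ᵐ x ∂(unif K), conj M ψ₁ x + ψ₁ (T₁ x) = inner ℝ x (T₁ x))
    {W Ae : ℝ} (hW : 0 ≤ W)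
    (hmain : ∀ σ : E d → ℝ, GoodDensity K σ →
      (dualVal R M (src K σ) ((unif K).map T₁) - dualVal R M (src K σ) ((unif K).map T₀))
        - (dualVal R M (unif K) ((unif K).map T₁) - dualVal R M (unif K) ((unif K).map T₀))
      ≤ C * √(∫ x, (σ x - 1) ^ 2 ∂(unif K)) * √W + Ae)
    {v : E d} (hv : ‖v‖ = 1) {h : ℝ} (h0 : 0 < h) (hhr : h ≤ r) :
    ∫ x, (max (inner ℝ (T₁ x - T₀ x) v) 0) ^ 2 ∂(unif K) ≤
      12 * M ^ 2 * (d / r) * h + 8 * (M + 1) * (Ae / h) + 4 * C ^ 2 * W / h ^ 2 := by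
  have hKm : MeasurableSet K := hK.measurableSet
  set u : E d := h • v with hu
  have hun : ‖u‖ = h := by rw [hu, norm_smul, hv, mul_one, Real.norm_eq_abs, abs_of_pos h0]
  set A : Set (E d) := {x | x + u ∈ K} with hA
  have hAm : MeasurableSet A := Translate.measurableSet_shift hKm u
  set t : E d → ℝ := fun x => inner ℝ (T₁ x - T₀ x) v with ht
  have htm : Measurable t := (hT₁.sub hT₀).inner_const
  have htb : ∀ᵐ x ∂(unif K), |t x| ≤ 2 * M := by
    filter_upwards [hT₀M, hT₁M] with x h1 h2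
    have h1' : ‖T₀ x‖ ≤ M := mem_closedBall_zero_iff.1 h1
    have h2' : ‖T₁ x‖ ≤ M := mem_closedBall_zero_iff.1 h2
    calc |t x| ≤ ‖T₁ x - T₀ x‖ * ‖v‖ := abs_real_inner_le_norm _ _
      _ ≤ 2 * M := by
        rw [hv, mul_one]
        exact (norm_sub_le _ _).trans (by linarith only [h1', h2'])
  set G : E d → ℝ := (K ∩ A).indicator fun x => min (max (t x) 0) (2 * M) with hG
  have hGmem : ∀ x ∈ K ∩ A, G x = min (max (t x) 0) (2 * M) :=
    fun x hx => indicator_of_mem hx _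
  have hGnot : ∀ x, x ∉ K ∩ A → G x = 0 := fun x hx => indicator_of_notMem hx _
  have hGm : Measurable G :=
    ((htm.max measurable_const).min measurable_const).indicator (hKm.inter hAm)
  have hG0 : ∀ x, 0 ≤ G x := by
    intro x
    apply indicator_nonneg
    intro y _
    exact le_min (le_max_right _ _) (by positivity)
  have hG2 : ∀ x, G x ≤ 2 * M := by
    intro x
    by_cases hx : x ∈ K ∩ A
    · rw [hGmem x hx]; exact min_le_right _ _
    · rw [hGnot x hx]; positivity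
  have hGB : ∀ x, |G x| ≤ 2 * M := fun x => by rw [abs_of_nonneg (hG0 x)]; exact hG2 x
  have hGs : ∀ x, G x ≠ 0 → x ∈ K ∧ x + u ∈ K := by
    intro x hx
    by_contra hcon
    have hcon' : x ∉ K ∩ A := hcon
    exact hx (hGnot x hcon')
  have hGt : ∀ x, G x ^ 2 ≤ inner ℝ (T₁ x - T₀ x) v * G x := by
    intro x
    show G x ^ 2 ≤ t x * G x
    by_cases hx : x ∈ K ∩ A
    · have hGx : G x = min (max (t x) 0) (2 * M) := hGmem x hx
      rcases le_total (t x) 0 with htx | htx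
      · have : G x = 0 := by rw [hGx, max_eq_right htx]; exact min_eq_left (by positivity)
        rw [this]; simp
      · have hle : G x ≤ t x := by rw [hGx, max_eq_left htx]; exact min_le_left _ _
        nlinarith only [hle, hG0 x]
    · rw [hGnot x hx]; simp
  set s : ℝ := 1 / (4 * (M + 1)) with hs
  have hs0 : 0 < s := by positivity
  have hsM : s * (2 * M) ≤ 1 / 2 := by
    rw [hs, div_mul_eq_mul_div, one_mul, div_le_div_iff₀ (by positivity) (by norm_num)]
    linarith only []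
  have hsG : ∀ x, s * G x ≤ 1 / 2 := fun x =>
    (mul_le_mul_of_nonneg_left (hG2 x) hs0.le).trans hsM
  have hchain := chain_add hM hK hKi hT₀ hT₁ hT₀M hT₁M hψ₀ hψ₁ he₀ he₁ hmain hGm hG0 hG2 hGs
    hs0 hsG
  have hF := Final.F_bound hM hK hKc hKi hr hb hT₀ hT₀M hψ₀.continuous he₀ hun h0 hhr hGm hG0
    hG2 hGs
  have hJ := Final.gain hK hKi hT₀ hT₁ hT₀M hT₁M h0 hGm hGB hGt
  have hσ2 := Final.sigma_sq hK hKi hGm hGB hGs s
  have hS : 0 ≤ ∫ x, G x ^ 2 ∂(unif K) := integral_nonneg fun x => sq_nonneg _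
  have hlast := Final.last_cmp hM hK hKc hKi hr hb hun hhr htb hGm hGB hGmem
  have hfin := algebra_add hs0 h0 hC hW hS hJ hF hchain hσ2
  have e : 2 * (Ae / (s * h)) = 8 * (M + 1) * (Ae / h) := by
    rw [hs]; field_simp; ring
  rw [e] at hfin
  calc _ ≤ _ := hlast
    _ ≤ (2 * (4 * M ^ 2 * (d / r) * h) + 8 * (M + 1) * (Ae / h) + 4 * C ^ 2 * W / h ^ 2)
          + 4 * M ^ 2 * (d / r) * h :=
      add_le_add hfin le_rfl
    _ = _ := by ring

/-- The estimate along couplings for the uniform source on a convex set, `1 ≤ p ≤ 2`. -/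
theorem final_conv {K : Set (E d)} (hK : IsCompact K) (hKc : Convex ℝ K)
    (hKi : (interior K).Nonempty) {R M : ℝ} (hR : 0 ≤ R) (hM : 0 ≤ M)
    (hKR : K ⊆ closedBall 0 R) {p : ℝ} (hp1 : 1 ≤ p) (hp2 : p ≤ 2) :
    ∃ C : ℝ, 0 ≤ C ∧
      ∀ μ ν : Measure (E d), IsProbabilityMeasure μ → IsProbabilityMeasure ν →
      μ (closedBall 0 M)ᶜ = 0 → ν (closedBall 0 M)ᶜ = 0 →
      ∀ T₀ T₁ : E d → E d, IsOptimalMap (unif K) μ T₀ → IsOptimalMap (unif K) ν T₁ →
      ∀ π : Measure (E d × E d), IsProbabilityMeasure π →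
        π.map Prod.fst = μ → π.map Prod.snd = ν →
        ∫ x, ‖T₀ x - T₁ x‖ ^ 2 ∂(unif K) ≤
          C * (∫ z, ‖z.1 - z.2‖ ^ p ∂π) ^ (1 / (p + 1)) := by
  obtain ⟨C, hC, hmain⟩ := main_ineq hK hKc hKi hR hM hKR
  have hKi' := hKi
  obtain ⟨x0, hx0⟩ := hKi'
  obtain ⟨r', hr', hball⟩ := Metric.isOpen_iff.1 isOpen_interior x0 hx0
  have hr : 0 < r' / 2 := by positivity
  have hb : closedBall x0 (r' / 2) ⊆ K :=
    (closedBall_subset_ball (by linarith only [hr'])).trans (hball.trans interior_subset)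
  set r := r' / 2 with hrdef
  have hprob := Final.unif_prob hK hKi
  refine ⟨2 * d * (12 * M ^ 2 * (d / r)) + 2 * d * (16 * (M + 1) * R + 4 * C ^ 2) +
    (2 * d * (4 * M ^ 2)) / r, by positivity, ?_⟩
  intro μ ν hμ hν hμM hνM T₀ T₁ hT₀ hT₁ π hπ h1 h2
  obtain ⟨ψ₀, hψ₀, he₀⟩ := optimalMap_potential hK hKi hR hM hKR hμ hμM hT₀
  obtain ⟨ψ₁, hψ₁, he₁⟩ := optimalMap_potential hK hKi hR hM hKR hν hνM hT₁
  have hT₀M := ae_mem_of_optimal hT₀ hμM
  have hT₁M := ae_mem_of_optimal hT₁ hνM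
  have hsupp := support_of_marginals h1 h2 hμM hνM
  set w : ℝ := ∫ z, ‖z.1 - z.2‖ ^ p ∂π with hw
  have hw0 : 0 ≤ w := integral_nonneg fun z => Real.rpow_nonneg (norm_nonneg _) _
  have hp0 : 0 < p := by linarith only [hp1]
  have hD : ∀ h : ℝ, 0 < h → h ≤ r →
      ∫ x, ‖T₁ x - T₀ x‖ ^ 2 ∂(unif K) ≤ 2 * d * (12 * M ^ 2 * (d / r)) * h +
        2 * d * (16 * (M + 1) * R + 4 * C ^ 2) * (w / h ^ p) := by
    intro h h0 hle
    have hWs : 0 ≤ h ^ (2 - p) * w := mul_nonneg (Real.rpow_nonneg h0.le _) hw0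
    have hm : ∀ σ : E d → ℝ, GoodDensity K σ →
      (dualVal R M (src K σ) ((unif K).map T₁) - dualVal R M (src K σ) ((unif K).map T₀))
        - (dualVal R M (unif K) ((unif K).map T₁) - dualVal R M (unif K) ((unif K).map T₀))
      ≤ C * √(∫ x, (σ x - 1) ^ 2 ∂(unif K)) * √(h ^ (2 - p) * w) +
        2 * R * (h ^ (1 - p) * w) := by
      intro σ hσ
      have := mixed_ineq hK hKi hR hM hC hKR hmain hp1 hp2 h0 hπ hsupp σ hσ
      rwa [h1, h2, ← hT₀.2.1, ← hT₁.2.1] at this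
    have := full_bound hM hT₀.1 hT₁.1 hT₀M hT₁M
      (B := 12 * M ^ 2 * (d / r) * h + 8 * (M + 1) * (2 * R * (h ^ (1 - p) * w) / h) +
        4 * C ^ 2 * (h ^ (2 - p) * w) / h ^ 2) (fun v hv =>
        dir_bound_add hM hK hKc hKi hr hb hC hT₀.1 hT₁.1 hT₀M hT₁M hψ₀ hψ₁ he₀ he₁ hWs hm
          hv h0 hle)
    refine this.trans (le_of_eq ?_)
    have e1 : 2 * R * (h ^ (1 - p) * w) / h = 2 * R * (w / h ^ p) := by
      rw [Real.rpow_sub h0, Real.rpow_one]
      field_simp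
    have e2 : 4 * C ^ 2 * (h ^ (2 - p) * w) / h ^ 2 = 4 * C ^ 2 * (w / h ^ p) := by
      rw [Real.rpow_sub h0, Real.rpow_two]
      field_simp
    rw [e1, e2]
    ring
  have hDc := full_bound hM hT₀.1 hT₁.1 hT₀M hT₁M (fun v hv => dir_trivial hM hT₀M hT₁M hv)
  have hopt := optimise hp0 hr hw0 (by positivity) (by positivity) (by positivity) hD hDc
  simp only [norm_sub_rev (T₀ _) (T₁ _)]
  exact hopt

/-- Stability with respect to `W_p`, `1 ≤ p ≤ 2`, for the uniform source on a convex set. -/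
theorem stability_conv {K Y : Set (E d)} (hK : IsCompact K) (hKc : Convex ℝ K)
    (hKi : (interior K).Nonempty) (hY : IsCompact Y) {p : ℝ} (hp1 : 1 ≤ p) (hp2 : p ≤ 2) :
    ∃ C : ℝ≥0, StabilityEstimate (unif K) Y p (p / (2 * (p + 1))) C := by
  obtain ⟨R, hR, hKR⟩ := hK.isBounded.exists_pos_norm_le
  obtain ⟨M, hM, hYM⟩ := hY.isBounded.exists_pos_norm_le
  have hKR' : K ⊆ closedBall 0 R := fun x hx => by
    simpa only [mem_closedBall, dist_zero_right] using hKR x hx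
  have hYM' : Y ⊆ closedBall 0 M := fun x hx => by
    simpa only [mem_closedBall, dist_zero_right] using hYM x hx
  have hprob := Final.unif_prob hK hKi
  obtain ⟨C, hC, hfin⟩ := final_conv hK hKc hKi hR.le hM.le hKR' hp1 hp2
  exact ⟨_, stability_p hYM' (by linarith only [hp1]) hC hfin⟩

end Vale.Agent.P074.H109
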