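import Vale.Agent.P074.H109.General

open MeasureTheory Set Metric
open scoped ENNReal NNReal RealInnerProductSpace

namespace Vale.Agent.P074.H109

variable {d : ℕ}

theorem ae_coupling {M : ℝ} {π : Measure (E d × E d)}
    (hπ : π (closedBall 0 M ×ˢ closedBall 0 M)ᶜ = 0) :
    ∀ᵐ z ∂π, ‖z.1‖ ≤ M ∧ ‖z.2‖ ≤ M := by
  have h : ∀ᵐ z ∂π, z ∈ (closedBall (0 : E d) M ×ˢ closedBall (0 : E d) M) := by
    rw [ae_iff]
    exact hπ
  filter_upwards [h] with z hz
  exact ⟨mem_closedBall_zero_iff.1 hz.1, mem_closedBall_zero_iff.1 hz.2⟩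

/-- A measurable function which is bounded on bounded sets is integrable for a coupling of
measures with bounded support. -/
theorem integrable_coupling {M C : ℝ} {π : Measure (E d × E d)} [IsProbabilityMeasure π]
    (hπ : π (closedBall 0 M ×ˢ closedBall 0 M)ᶜ = 0) {f : E d × E d → ℝ} (hf : Measurable f)
    (hC : ∀ z : E d × E d, ‖z.1‖ ≤ M → ‖z.2‖ ≤ M → |f z| ≤ C) : Integrable f π := by
  apply Integrable.of_bound hf.aestronglyMeasurable C
  filter_upwards [ae_coupling hπ] with z hz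
  rw [Real.norm_eq_abs]
  exact hC z hz.1 hz.2

theorem integrable_dist {M : ℝ} {π : Measure (E d × E d)} [IsProbabilityMeasure π]
    (hπ : π (closedBall 0 M ×ˢ closedBall 0 M)ᶜ = 0) :
    Integrable (fun z : E d × E d => ‖z.1 - z.2‖) π := by
  apply integrable_coupling hπ (by fun_prop) (C := M + M)
  intro z h1 h2
  rw [abs_of_nonneg (norm_nonneg _)]
  exact (norm_sub_le _ _).trans (add_le_add h1 h2)

theorem integrable_fst {M : ℝ} {π : Measure (E d × E d)} [IsProbabilityMeasure π]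
    (hπ : π (closedBall 0 M ×ˢ closedBall 0 M)ᶜ = 0) {ψ : E d → ℝ} (hψ : Continuous ψ) :
    Integrable (fun z : E d × E d => ψ z.1) π := by
  obtain ⟨C, hC⟩ := (isCompact_closedBall (0 : E d) M).exists_bound_of_continuousOn
    hψ.continuousOn
  apply integrable_coupling hπ (hψ.measurable.comp measurable_fst) (C := C)
  intro z h1 _
  exact hC _ (mem_closedBall_zero_iff.2 h1)

theorem integrable_snd {M : ℝ} {π : Measure (E d × E d)} [IsProbabilityMeasure π]
    (hπ : π (closedBall 0 M ×ˢ closedBall 0 M)ᶜ = 0) {ψ : E d → ℝ} (hψ : Continuous ψ) :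
    Integrable (fun z : E d × E d => ψ z.2) π := by
  obtain ⟨C, hC⟩ := (isCompact_closedBall (0 : E d) M).exists_bound_of_continuousOn
    hψ.continuousOn
  apply integrable_coupling hπ (hψ.measurable.comp measurable_snd) (C := C)
  intro z _ h2
  exact hC _ (mem_closedBall_zero_iff.2 h2)

/-- The integrals of an `R`-Lipschitz function against the two marginals of a coupling. -/
theorem lip_coupling {R M : ℝ} (hR : 0 ≤ R) {π : Measure (E d × E d)} [IsProbabilityMeasure π]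
    (hπ : π (closedBall 0 M ×ˢ closedBall 0 M)ᶜ = 0) {ψ : E d → ℝ}
    (hψ : LipschitzWith R.toNNReal ψ) :
    ∫ y, ψ y ∂(π.map Prod.snd) ≤ (∫ y, ψ y ∂(π.map Prod.fst)) + R * ∫ z, ‖z.1 - z.2‖ ∂π ∧
    ∫ y, ψ y ∂(π.map Prod.fst) ≤ (∫ y, ψ y ∂(π.map Prod.snd)) + R * ∫ z, ‖z.1 - z.2‖ ∂π := by
  have hc := hψ.continuous
  rw [integral_map measurable_snd.aemeasurable hc.aestronglyMeasurable,
    integral_map measurable_fst.aemeasurable hc.aestronglyMeasurable, ← integral_const_mul]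
  have i1 := integrable_fst hπ hc
  have i2 := integrable_snd hπ hc
  have i3 := (integrable_dist hπ).const_mul R
  have hL : ∀ a b : E d, |ψ a - ψ b| ≤ R * ‖a - b‖ := by
    intro a b
    have := hψ.dist_le_mul a b
    rwa [Real.dist_eq, dist_eq_norm, Real.coe_toNNReal R hR] at this
  constructor
  · rw [← integral_add i1 i3]
    apply integral_mono i2 (i1.add i3)
    intro z
    have := abs_le.1 (hL z.1 z.2)
    show ψ z.2 ≤ ψ z.1 + R * ‖z.1 - z.2‖
    linarith only [this.1]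
  · rw [← integral_add i2 i3]
    apply integral_mono i1 (i2.add i3)
    intro z
    have := abs_le.1 (hL z.1 z.2)
    show ψ z.1 ≤ ψ z.2 + R * ‖z.1 - z.2‖
    linarith only [this.2]

/-- A coupling of two measures supported in a ball is supported in the square of the ball. -/
theorem support_of_marginals {M : ℝ} {μ ν : Measure (E d)} {π : Measure (E d × E d)}
    (h0 : π.map Prod.fst = μ) (h1 : π.map Prod.snd = ν)
    (hμ : μ (closedBall 0 M)ᶜ = 0) (hν : ν (closedBall 0 M)ᶜ = 0) :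
    π (closedBall 0 M ×ˢ closedBall 0 M)ᶜ = 0 := by
  have hBm : MeasurableSet (closedBall (0 : E d) M)ᶜ := isClosed_closedBall.measurableSet.compl
  have e : (closedBall (0 : E d) M ×ˢ closedBall (0 : E d) M)ᶜ =
      Prod.fst ⁻¹' (closedBall (0 : E d) M)ᶜ ∪ Prod.snd ⁻¹' (closedBall (0 : E d) M)ᶜ := by
    ext z
    simp only [mem_compl_iff, mem_prod, mem_union, mem_preimage]
    tauto
  rw [e, measure_union_null_iff]
  constructor
  · rw [← Measure.map_apply measurable_fst hBm, h0]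
    exact hμ
  · rw [← Measure.map_apply measurable_snd hBm, h1]
    exact hν

/-- From an estimate along all couplings to the stability estimate. -/
theorem stability_p {ρ : Measure (E d)} [IsProbabilityMeasure ρ] {Y : Set (E d)} {M : ℝ}
    (hY : Y ⊆ closedBall 0 M) {p : ℝ} (hp : 0 < p) {C : ℝ} (hC : 0 ≤ C)
    (hfin : ∀ μ ν : Measure (E d), IsProbabilityMeasure μ → IsProbabilityMeasure ν →
      μ (closedBall 0 M)ᶜ = 0 → ν (closedBall 0 M)ᶜ = 0 →
      ∀ T₀ T₁ : E d → E d, IsOptimalMap ρ μ T₀ → IsOptimalMap ρ ν T₁ →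
      ∀ π : Measure (E d × E d), IsProbabilityMeasure π →
        π.map Prod.fst = μ → π.map Prod.snd = ν →
        ∫ x, ‖T₀ x - T₁ x‖ ^ 2 ∂ρ ≤ C * (∫ z, ‖z.1 - z.2‖ ^ p ∂π) ^ (1 / (p + 1))) :
    StabilityEstimate ρ Y p (p / (2 * (p + 1))) (Real.toNNReal (√(C + 1))) := by
  intro μ ν hμ hν hμY hνY T S hT hS
  have hsub : (closedBall (0 : E d) M)ᶜ ⊆ Yᶜ := compl_subset_compl.2 hY
  have hμM : μ (closedBall 0 M)ᶜ = 0 := measure_mono_null hsub hμY
  have hνM : ν (closedBall 0 M)ᶜ = 0 := measure_mono_null hsub hνY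
  have hTm := hT.1
  have hSm := hS.1
  have haeT : ∀ᵐ x ∂ρ, ‖T x‖ ≤ M := by
    filter_upwards [ae_mem_of_optimal hT hμM] with x hx
    exact mem_closedBall_zero_iff.1 hx
  have haeS : ∀ᵐ x ∂ρ, ‖S x‖ ≤ M := by
    filter_upwards [ae_mem_of_optimal hS hνM] with x hx
    exact mem_closedBall_zero_iff.1 hx
  have hmem : MemLp (fun x => T x - S x) 2 ρ := by
    apply MemLp.of_bound (hTm.sub hSm).aestronglyMeasurable (M + M)
    filter_upwards [haeT, haeS] with x h1 h2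
    exact le_trans (norm_sub_le _ _) (add_le_add h1 h2)
  have hCpos : (0 : ℝ) < √(C + 1) := Real.sqrt_pos.2 (by linarith only [hC])
  have hp1 : 0 < p + 1 := by linarith only [hp]
  apply le_of_forall_coupling hp (by positivity)
  · exact (Real.toNNReal_pos.2 hCpos).ne'
  intro π h1 h2
  have hπ : IsProbabilityMeasure π := by
    refine ⟨?_⟩
    have h3 : π.map Prod.fst univ = 1 := by rw [h1]; exact measure_univ
    rwa [Measure.map_apply measurable_fst MeasurableSet.univ, preimage_univ] at h3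
  have hsupp := support_of_marginals h1 h2 hμM hνM
  have hint : ∫⁻ z, ‖z.1 - z.2‖ₑ ^ p ∂π = ENNReal.ofReal (∫ z, ‖z.1 - z.2‖ ^ p ∂π) := by
    rw [ofReal_integral_eq_lintegral_ofReal]
    · apply lintegral_congr
      intro z
      rw [← ENNReal.ofReal_rpow_of_nonneg (norm_nonneg _) hp.le, ofReal_norm]
    · apply integrable_coupling hsupp
        ((measurable_fst.sub measurable_snd).norm.pow_const p) (C := (M + M) ^ p)
      intro z hz1 hz2
      rw [abs_of_nonneg (Real.rpow_nonneg (norm_nonneg _) _)]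
      exact Real.rpow_le_rpow (norm_nonneg _)
        (le_trans (norm_sub_le _ _) (add_le_add hz1 hz2)) hp.le
    · filter_upwards with z
      exact Real.rpow_nonneg (norm_nonneg _) _
  have hJ : 0 ≤ ∫ z, ‖z.1 - z.2‖ ^ p ∂π :=
    integral_nonneg fun z => Real.rpow_nonneg (norm_nonneg _) _
  have hmain := hfin μ ν hμ hν hμM hνM T S hT hS π hπ h1 h2
  have hI : 0 ≤ ∫ x, ‖T x - S x‖ ^ 2 ∂ρ := integral_nonneg fun x => by positivity
  rw [hmem.eLpNorm_eq_integral_rpow_norm (by norm_num) (by norm_num), hint,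
    ENNReal.ofReal_rpow_of_nonneg hJ (by positivity)]
  have hcoe : ((Real.toNNReal (√(C + 1)) : ℝ≥0) : ℝ≥0∞) = ENNReal.ofReal (√(C + 1)) := rfl
  rw [hcoe, ← ENNReal.ofReal_mul hCpos.le]
  apply ENNReal.ofReal_le_ofReal
  simp only [ENNReal.toReal_ofNat, Real.rpow_ofNat]
  set J := ∫ z, ‖z.1 - z.2‖ ^ p ∂π with hJdef
  have h5 : (∫ x, ‖T x - S x‖ ^ 2 ∂ρ) ≤ (C + 1) * J ^ (1 / (p + 1)) := by
    refine le_trans hmain ?_
    have : 0 ≤ J ^ (1 / (p + 1)) := Real.rpow_nonneg hJ _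
    nlinarith only [this]
  calc (∫ x, ‖T x - S x‖ ^ 2 ∂ρ) ^ ((2 : ℝ)⁻¹)
      ≤ ((C + 1) * J ^ (1 / (p + 1))) ^ ((2 : ℝ)⁻¹) := Real.rpow_le_rpow hI h5 (by norm_num)
    _ = √(C + 1) * J ^ (p / (2 * (p + 1)) / p) := by
        rw [Real.mul_rpow (by linarith only [hC]) (Real.rpow_nonneg hJ _), ← Real.rpow_mul hJ,
          Real.sqrt_eq_rpow]
        congr 2
        · norm_num
        · field_simp

/-- The estimate along couplings for a general source. -/
theorem final_w1 (d : ℕ) (Λ : ℝ≥0) {R M : ℝ} (hR : 0 ≤ R) (hM : 0 ≤ M) :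
    ∃ C : ℝ, 0 ≤ C ∧ ∀ ρ : Measure (E d), IsProbabilityMeasure ρ → ρ ≤ Λ • volume →
      ρ (closedBall 0 R)ᶜ = 0 →
      ∀ μ ν : Measure (E d), IsProbabilityMeasure μ → IsProbabilityMeasure ν →
      μ (closedBall 0 M)ᶜ = 0 → ν (closedBall 0 M)ᶜ = 0 →
      ∀ T₀ T₁ : E d → E d, IsOptimalMap ρ μ T₀ → IsOptimalMap ρ ν T₁ →
      ∀ π : Measure (E d × E d), IsProbabilityMeasure π →
        π.map Prod.fst = μ → π.map Prod.snd = ν →
        ∫ x, ‖T₀ x - T₁ x‖ ^ 2 ∂ρ ≤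
          C * (∫ z, ‖z.1 - z.2‖ ^ (1 : ℝ) ∂π) ^ (1 / ((1 : ℝ) + 1)) := by
  set a : ℝ := 2 * d * (2 * M * (Λ * (2 * M *
    (d * volume.real (closedBall (0 : E d) (R + 1)) / (R + 1))))) with ha
  set b : ℝ := 2 * d * (2 * (2 * M + 1) * R) with hb
  have ha0 : 0 ≤ a := by positivity
  have hb0 : 0 ≤ b := by positivity
  refine ⟨a + b + (2 * d * (4 * M ^ 2)) / 1, by positivity, ?_⟩
  intro ρ hprob hρ hρR μ ν hμ hν hμM hνM T₀ T₁ hT₀ hT₁ π hπ h1 h2
  have hρac : ρ ≪ volume :=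
    (Measure.absolutelyContinuous_of_le hρ).trans (Measure.smul_absolutelyContinuous)
  obtain ⟨ψ₀, hψ₀, he₀⟩ := potential hR hM hρac hρR hμ hμM hT₀
  obtain ⟨ψ₁, hψ₁, he₁⟩ := potential hR hM hρac hρR hν hνM hT₁
  have hT₀M := ae_mem_of_optimal hT₀ hμM
  have hT₁M := ae_mem_of_optimal hT₁ hνM
  have hsupp := support_of_marginals h1 h2 hμM hνM
  set w : ℝ := ∫ z, ‖z.1 - z.2‖ ∂π with hw
  have hw0 : 0 ≤ w := integral_nonneg fun z => norm_nonneg _
  have hmap : ∀ (T : E d → E d) (κ : Measure (E d)), IsOptimalMap ρ κ T →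
      ∀ ψ : E d → ℝ, Continuous ψ → ∫ x, ψ (T x) ∂ρ = ∫ y, ψ y ∂κ := by
    intro T κ hT ψ hψ
    rw [← hT.2.1, integral_map hT.1.aemeasurable hψ.aestronglyMeasurable]
  have hw₀ : ∫ x, ψ₀ (T₁ x) ∂ρ ≤ (∫ x, ψ₀ (T₀ x) ∂ρ) + R * w := by
    rw [hmap T₁ ν hT₁ ψ₀ hψ₀.continuous, hmap T₀ μ hT₀ ψ₀ hψ₀.continuous, ← h1, ← h2]
    exact (lip_coupling hR hsupp hψ₀).1
  have hw₁ : ∫ x, ψ₁ (T₀ x) ∂ρ ≤ (∫ x, ψ₁ (T₁ x) ∂ρ) + R * w := by
    rw [hmap T₁ ν hT₁ ψ₁ hψ₁.continuous, hmap T₀ μ hT₀ ψ₁ hψ₁.continuous, ← h1, ← h2]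
    exact (lip_coupling hR hsupp hψ₁).2
  have hD : ∀ h : ℝ, 0 < h → h ≤ 1 →
      ∫ x, ‖T₁ x - T₀ x‖ ^ 2 ∂ρ ≤ a * h + b * (w / h ^ (1 : ℝ)) := by
    intro h h0 hle
    have := full_bound hM hT₀.1 hT₁.1 hT₀M hT₁M
      (B := (2 * M * (Λ * (2 * M *
        (d * volume.real (closedBall (0 : E d) (R + 1)) / (R + 1))))) * h
        + 2 * (2 * M + 1) * (R * w) / h) (fun v hv =>
        dir_bound_w1 hM hR hρ hρR hT₀.1 hT₁.1 hT₀M hT₁M hψ₀.continuous hψ₁.continuous
          he₀ he₁ hw₀ hw₁ hv h0 hle)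
    refine this.trans (le_of_eq ?_)
    rw [Real.rpow_one, ha, hb]
    ring
  have hDc := full_bound hM hT₀.1 hT₁.1 hT₀M hT₁M (fun v hv => dir_trivial hM hT₀M hT₁M hv)
  have hopt := optimise one_pos one_pos hw0 ha0 hb0 (by positivity) hD hDc
  simp only [norm_sub_rev (T₀ _) (T₁ _)]
  simp only [Real.rpow_one]
  exact hopt

/-- Stability with exponent `1/4` with respect to `W_1` for every source with bounded density
and bounded support. -/
theorem stability_w1 (d : ℕ) (Λ : ℝ≥0) (R : ℝ) {Y : Set (E d)} (hY : IsCompact Y) :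
    ∃ C : ℝ≥0, ∀ ρ : Measure (E d), IsProbabilityMeasure ρ → ρ ≤ Λ • volume →
      ρ (closedBall 0 R)ᶜ = 0 → StabilityEstimate ρ Y 1 (1 / 4) C := by
  obtain ⟨M, hM, hYM⟩ := hY.isBounded.exists_pos_norm_le
  have hYM' : Y ⊆ closedBall 0 M := fun x hx => by
    simpa only [mem_closedBall, dist_zero_right] using hYM x hx
  obtain ⟨C, hC, hfin⟩ := final_w1 d Λ (le_max_right R 0) hM.le
  refine ⟨Real.toNNReal (√(C + 1)), ?_⟩
  intro ρ hprob hρ hρR
  have hρR' : ρ (closedBall 0 (max R 0))ᶜ = 0 :=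
    measure_mono_null (compl_subset_compl.2 (closedBall_subset_closedBall (le_max_left _ _))) hρR
  have := stability_p (ρ := ρ) hYM' one_pos hC (hfin ρ hprob hρ hρR')
  norm_num at this
  exact this

end Vale.Agent.P074.H109
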