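import Vale.Agent.P074.Bdl.B1

open MeasureTheory Set Metric
open scoped ENNReal NNReal RealInnerProductSpace

namespace Vale.Agent.P074.H109

variable {d : ℕ}

/-- Every optimal map has an optimal potential (absolutely continuous source with bounded
support). -/
theorem potential {ρ : Measure (E d)} [IsProbabilityMeasure ρ] {R M : ℝ} (hR : 0 ≤ R)
    (hM : 0 ≤ M) (hρac : ρ ≪ volume) (hςR : ρ (closedBall 0 R)ᶜ = 0)
    {μ : Measure (E d)} (hμ : IsProbabilityMeasure μ)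
    (hμM : μ (closedBall 0 M)ᶜ = 0) {T : E d → E d} (hT : IsOptimalMap ρ μ T) :
    ∃ ψ : E d → ℝ, LipschitzWith R.toNNReal ψ ∧
      ∀ᵐ x ∂ρ, conj M ψ x + ψ (T x) = inner ℝ x (T x) := by
  have hsupp : ∀ᵐ x ∂ρ, x ∈ closedBall (0 : E d) R := by
    rw [ae_iff]
    exact hςR
  obtain ⟨ψ, S, hψL, hSm, hSB, hSmap, hSae⟩ := exists_optimal (R := R) (M := M) hR hM ρ μ
    (by rw [measure_univ, measure_univ]) hρac hςR hμM
  refine ⟨ψ, hψL, ?_⟩
  obtain ⟨hTm, hTmap, hTmin⟩ := hT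
  have hψc : Continuous ψ := hψL.continuous
  have hgc : Continuous (fun y : closedBall (0 : E d) M => ψ y) :=
    hψc.comp continuous_subtype_val
  -- `T x` is in the ball a.e.
  have hTB : ∀ᵐ x ∂ρ, T x ∈ closedBall (0 : E d) M := by
    have h1 : ∀ᵐ y ∂(ρ.map T), y ∈ closedBall (0 : E d) M := by
      rw [hTmap, ae_iff]
      exact hμM
    exact ae_of_ae_map hTm.aemeasurable h1
  -- integrability of bounded things
  have hbdd : ∀ (f : E d → ℝ), AEStronglyMeasurable f ρ → ∀ C : ℝ,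
      (∀ᵐ x ∂ρ, |f x| ≤ C) → Integrable f ρ := by
    intro f hf C hC
    exact Integrable.of_bound hf C (by simpa only [Real.norm_eq_abs] using hC)
  have hxB : ∀ᵐ x ∂ρ, ‖x‖ ≤ R := by
    filter_upwards [hsupp] with x hx
    exact mem_closedBall_zero_iff.1 hx
  have hcost : ∀ (Q : E d → E d), Measurable Q → (∀ᵐ x ∂ρ, Q x ∈ closedBall (0 : E d) M) →
      (Integrable (fun x => ‖x - Q x‖ ^ 2) ρ ∧ Integrable (fun x => ‖x‖ ^ 2) ρ ∧
      Integrable (fun x => (inner ℝ x (Q x) : ℝ)) ρ ∧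
      Integrable (fun x => ‖Q x‖ ^ 2) ρ) := by
    intro Q hQm hQB
    have hQn : ∀ᵐ x ∂ρ, ‖Q x‖ ≤ M := by
      filter_upwards [hQB] with x hx
      exact mem_closedBall_zero_iff.1 hx
    refine ⟨?_, ?_, ?_, ?_⟩
    · apply hbdd _ (Measurable.aestronglyMeasurable (by fun_prop)) ((R + M) ^ 2)
      filter_upwards [hxB, hQn] with x h1 h2
      rw [abs_of_nonneg (sq_nonneg _)]
      apply pow_le_pow_left₀ (norm_nonneg _)
      exact (norm_sub_le _ _).trans (add_le_add h1 h2)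
    · apply hbdd _ (Measurable.aestronglyMeasurable (by fun_prop)) (R ^ 2)
      filter_upwards [hxB] with x h1
      rw [abs_of_nonneg (sq_nonneg _)]
      exact pow_le_pow_left₀ (norm_nonneg _) h1 2
    · apply hbdd _ (Measurable.aestronglyMeasurable (by fun_prop)) (R * M)
      filter_upwards [hxB, hQn] with x h1 h2
      exact (abs_real_inner_le_norm _ _).trans (mul_le_mul h1 h2 (norm_nonneg _) hR)
    · apply hbdd _ (Measurable.aestronglyMeasurable (by fun_prop)) (M ^ 2)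
      filter_upwards [hQn] with x h1
      rw [abs_of_nonneg (sq_nonneg _)]
      exact pow_le_pow_left₀ (norm_nonneg _) h1 2
  have hSB' : ∀ᵐ x ∂ρ, S x ∈ closedBall (0 : E d) M := Filter.Eventually.of_forall hSB
  obtain ⟨cT1, cT2, cT3, cT4⟩ := hcost T hTm hTB
  obtain ⟨cS1, cS2, cS3, cS4⟩ := hcost S hSm hSB'
  -- compare costs as real integrals
  have hle := hTmin S hSm hSmap
  have hconv : ∀ (Q : E d → E d), Integrable (fun x => ‖x - Q x‖ ^ 2) ρ →
      ∫⁻ x, ‖x - Q x‖ₑ ^ 2 ∂ρ = ENNReal.ofReal (∫ x, ‖x - Q x‖ ^ 2 ∂ρ) := by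
    intro Q hQ
    rw [ofReal_integral_eq_lintegral_ofReal hQ (Filter.Eventually.of_forall fun x => sq_nonneg _)]
    apply lintegral_congr
    intro x
    rw [ENNReal.ofReal_pow (norm_nonneg _), ofReal_norm]
  rw [hconv T cT1, hconv S cS1] at hle
  have hle' : ∫ x, ‖x - T x‖ ^ 2 ∂ρ ≤ ∫ x, ‖x - S x‖ ^ 2 ∂ρ :=
    (ENNReal.ofReal_le_ofReal_iff (integral_nonneg fun x => sq_nonneg _)).1 hle
  have hexp : ∀ (Q : E d → E d), Integrable (fun x => ‖x‖ ^ 2) ρ →
      Integrable (fun x => (inner ℝ x (Q x) : ℝ)) ρ →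
      Integrable (fun x => ‖Q x‖ ^ 2) ρ →
      ∫ x, ‖x - Q x‖ ^ 2 ∂ρ = (∫ x, ‖x‖ ^ 2 ∂ρ) -
        2 * (∫ x, inner ℝ x (Q x) ∂ρ) + ∫ x, ‖Q x‖ ^ 2 ∂ρ := by
    intro Q h1 h2 h3
    simp_rw [norm_sub_sq_real]
    have e1 : Integrable (fun x => ‖x‖ ^ 2 - 2 * (inner ℝ x (Q x) : ℝ)) ρ :=
      h1.sub (h2.const_mul 2)
    rw [integral_add e1 h3, integral_sub h1 (h2.const_mul 2), integral_const_mul]
  rw [hexp T cT2 cT3 cT4, hexp S cS2 cS3 cS4] at hle'
  have hsq : ∀ (Q : E d → E d), Measurable Q → ρ.map Q = μ →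
      ∫ x, ‖Q x‖ ^ 2 ∂ρ = ∫ y, ‖y‖ ^ 2 ∂μ := by
    intro Q hQm hQmap
    rw [← hQmap, integral_map hQm.aemeasurable (Continuous.aestronglyMeasurable (by fun_prop))]
  rw [hsq T hTm hTmap, hsq S hSm hSmap] at hle'
  have hcorr : ∫ x, inner ℝ x (S x) ∂ρ ≤ ∫ x, inner ℝ x (T x) ∂ρ := by linarith only [hle']
  -- potentials
  have hconjint : Integrable (conj M ψ) ρ := integrable_cj (R := R) hM hςR hgc
  have hψint : ∀ (Q : E d → E d), Measurable Q → ρ.map Q = μ →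
      (∀ᵐ x ∂ρ, Q x ∈ closedBall (0 : E d) M) →
      Integrable (fun x => ψ (Q x)) ρ ∧ ∫ x, ψ (Q x) ∂ρ = ∫ y, ψ y ∂μ := by
    intro Q hQm hQmap hQB
    constructor
    · obtain ⟨C, hC⟩ := (isCompact_closedBall (0 : E d) M).exists_bound_of_continuousOn
        hψc.continuousOn
      apply hbdd _ (hψc.measurable.comp hQm).aestronglyMeasurable C
      filter_upwards [hQB] with x hx
      exact hC _ hx
    · rw [← hQmap, integral_map hQm.aemeasurable hψc.aestronglyMeasurable]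
  obtain ⟨iT, eT⟩ := hψint T hTm hTmap hTB
  obtain ⟨iS, eS⟩ := hψint S hSm hSmap hSB'
  have hS1 : ∫ x, inner ℝ x (S x) ∂ρ = ∫ x, (conj M ψ x + ψ (S x)) ∂ρ := by
    apply integral_congr_ae
    filter_upwards [hSae] with x hx
    exact hx.symm
  rw [integral_add hconjint iS, eS, ← eT, ← integral_add hconjint iT] at hS1
  have hgap0 : 0 ≤ᵐ[ρ] fun x => (conj M ψ x + ψ (T x)) - inner ℝ x (T x) := by
    filter_upwards [hTB] with x hx
    have := le_cj hgc x ⟨T x, hx⟩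
    simp only [Pi.zero_apply]
    have h2 : conj M ψ x = cj M (fun y => ψ y) x := rfl
    rw [h2]
    linarith only [this]
  have hci : Integrable (fun x => conj M ψ x + ψ (T x)) ρ := hconjint.add iT
  have hgapint : Integrable (fun x => (conj M ψ x + ψ (T x)) - inner ℝ x (T x)) ρ :=
    hci.sub cT3
  have hgap1 : ∫ x, ((conj M ψ x + ψ (T x)) - inner ℝ x (T x)) ∂ρ ≤ 0 := by
    rw [integral_sub hci cT3]
    linarith only [hle', hS1]
  have hgap2 : ∫ x, ((conj M ψ x + ψ (T x)) - inner ℝ x (T x)) ∂ρ = 0 :=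
    le_antisymm hgap1 (integral_nonneg_of_ae hgap0)
  have hgap3 := (integral_eq_zero_iff_of_nonneg_ae hgap0 hgapint).1 hgap2
  filter_upwards [hgap3] with x hx
  simp only [Pi.zero_apply] at hx
  linarith only [hx]

section General

variable {ρ : Measure (E d)} [IsProbabilityMeasure ρ] {R M : ℝ}

theorem integrable_cont (hρR : ρ (closedBall 0 R)ᶜ = 0) {f : E d → ℝ} (hf : Continuous f) :
    Integrable f ρ := integrable_of_continuous_of_ball hρR hf

theorem integrable_mul_bdd {f G : E d → ℝ} (hf : Integrable f ρ) (hG : Measurable G)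
    {B : ℝ} (hB : ∀ x, |G x| ≤ B) : Integrable (fun x => f x * G x) ρ := by
  have h := Integrable.bdd_mul (f := G) (g := f) hf hG.aestronglyMeasurable
    (c := B) (ae_of_all _ fun x => by rw [Real.norm_eq_abs]; exact hB x)
  exact h.congr (ae_of_all _ fun x => mul_comm _ _)

theorem integrable_comp {T : E d → E d} (hT : Measurable T)
    (hTM : ∀ᵐ x ∂ρ, T x ∈ closedBall (0 : E d) M) {ψ : E d → ℝ} (hψ : Continuous ψ) :
    Integrable (fun x => ψ (T x)) ρ := by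
  obtain ⟨C, hC⟩ := (isCompact_closedBall (0 : E d) M).exists_bound_of_continuousOn
    hψ.continuousOn
  apply Integrable.of_bound (hψ.measurable.comp hT).aestronglyMeasurable C
  filter_upwards [hTM] with x hx using hC _ hx

theorem integrable_inner (hρR : ρ (closedBall 0 R)ᶜ = 0) {T : E d → E d} (hT : Measurable T)
    (hTM : ∀ᵐ x ∂ρ, T x ∈ closedBall (0 : E d) M) {f : E d → E d} (hf : Continuous f) :
    Integrable (fun x => inner ℝ (f x) (T x)) ρ := by
  obtain ⟨C, hC⟩ := (isCompact_closedBall (0 : E d) R).exists_bound_of_continuousOn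
    hf.continuousOn
  apply Integrable.of_bound (hf.measurable.inner hT).aestronglyMeasurable (C * M)
  filter_upwards [hTM, ae_mem_ball hρR] with x hx hxK
  rw [Real.norm_eq_abs]
  have h1 : ‖T x‖ ≤ M := mem_closedBall_zero_iff.1 hx
  have h2 := hC x hxK
  calc |inner ℝ (f x) (T x)| ≤ ‖f x‖ * ‖T x‖ := abs_real_inner_le_norm _ _
    _ ≤ C * M := mul_le_mul h2 h1 (norm_nonneg _) ((norm_nonneg _).trans h2)

/-- Weak duality for the perturbed source, with an explicit competitor coupling, and the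
Lipschitz dependence of the optimal value on the target. -/
theorem chain_w1 (hM : 0 ≤ M) (hρR : ρ (closedBall 0 R)ᶜ = 0)
    {T₀ T₁ : E d → E d} (hT₀ : Measurable T₀) (hT₁ : Measurable T₁)
    (hT₀M : ∀ᵐ x ∂ρ, T₀ x ∈ closedBall (0 : E d) M)
    (hT₁M : ∀ᵐ x ∂ρ, T₁ x ∈ closedBall (0 : E d) M)
    {ψ₀ ψ₁ : E d → ℝ} (hψ₀ : Continuous ψ₀) (hψ₁ : Continuous ψ₁)
    (he₀ : ∀ᵐ x ∂ρ, conj M ψ₀ x + ψ₀ (T₀ x) = inner ℝ x (T₀ x))
    (he₁ : ∀ᵐ x ∂ρ, conj M ψ₁ x + ψ₁ (T₁ x) = inner ℝ x (T₁ x))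
    {w : ℝ} (hw₀ : ∫ x, ψ₀ (T₁ x) ∂ρ ≤ (∫ x, ψ₀ (T₀ x) ∂ρ) + w)
    (hw₁ : ∫ x, ψ₁ (T₀ x) ∂ρ ≤ (∫ x, ψ₁ (T₁ x) ∂ρ) + w)
    {u : E d} {G : E d → ℝ}
    (hGm : Measurable G) (hG0 : ∀ x, 0 ≤ G x) (hG2 : ∀ x, G x ≤ 2 * M) {s : ℝ} (hs0 : 0 < s)
    (hsG : ∀ x, s * G x ≤ 1) :
    s * ((∫ x, inner ℝ u (T₁ x) * G x ∂ρ) -
        ∫ x, (conj M ψ₀ (x + u) - conj M ψ₀ x) * G x ∂ρ) ≤ 2 * w := by
  have hGB : ∀ x, |G x| ≤ 2 * M := fun x => by rw [abs_of_nonneg (hG0 x)]; exact hG2 x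
  have hc₀ := continuous_conj hM hψ₀
  have hc₁ := continuous_conj hM hψ₁
  have hc' : Continuous fun x => conj M ψ₀ (x + u) :=
    hc₀.comp (continuous_id.add continuous_const)
  have i0 := integrable_cont hρR hc₀
  have i1 := integrable_mul_bdd ((integrable_cont hρR hc').sub i0) hGm hGB
  have i2 := integrable_comp hT₁ hT₁M hψ₀
  have i3 := integrable_inner hρR hT₁ hT₁M (f := fun x => x) continuous_id
  have i4 := integrable_mul_bdd (integrable_inner hρR hT₁ hT₁M (f := fun _ => u)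
    continuous_const) hGm hGB
  have i5 := integrable_comp hT₀ hT₀M hψ₀
  have i6 := integrable_inner hρR hT₀ hT₀M (f := fun x => x) continuous_id
  have i7 := integrable_comp hT₀ hT₀M hψ₁
  have i8 := integrable_comp hT₁ hT₁M hψ₁
  have i9 := integrable_cont hρR hc₁
  have i1' : Integrable (fun x => s * ((conj M ψ₀ (x + u) - conj M ψ₀ x) * G x)) ρ :=
    i1.const_mul s
  have i01 : Integrable (fun x => conj M ψ₀ x + s * ((conj M ψ₀ (x + u) - conj M ψ₀ x) * G x))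
    ρ := i0.add i1'
  have key : (∫ x, inner ℝ x (T₁ x) ∂ρ) + s * (∫ x, inner ℝ u (T₁ x) * G x ∂ρ) ≤
      (∫ x, conj M ψ₀ x ∂ρ) + s * (∫ x, (conj M ψ₀ (x + u) - conj M ψ₀ x) * G x ∂ρ) +
        ∫ x, ψ₀ (T₁ x) ∂ρ := by
    rw [← integral_const_mul, ← integral_const_mul, ← integral_add i3 (i4.const_mul s),
      ← integral_add i0 i1', ← integral_add i01 i2]
    apply integral_mono_ae (i3.add (i4.const_mul s)) (i01.add i2)
    filter_upwards [hT₁M] with x hx
    have h1 := le_conj hψ₀ x hx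
    have h2 := le_conj hψ₀ (x + u) hx
    rw [inner_add_left] at h2
    have h3 := mul_nonneg hs0.le (hG0 x)
    have h4 := hsG x
    show inner ℝ x (T₁ x) + s * (inner ℝ u (T₁ x) * G x) ≤
      conj M ψ₀ x + s * ((conj M ψ₀ (x + u) - conj M ψ₀ x) * G x) + ψ₀ (T₁ x)
    nlinarith only [h2, h3, h1, h4]
  have e0 : (∫ x, inner ℝ x (T₀ x) ∂ρ) = (∫ x, conj M ψ₀ x ∂ρ) + ∫ x, ψ₀ (T₀ x) ∂ρ := by
    rw [← integral_add i0 i5]
    apply integral_congr_ae
    filter_upwards [he₀] with x hx using hx.symm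
  have e1 : (∫ x, inner ℝ x (T₁ x) ∂ρ) = (∫ x, conj M ψ₁ x ∂ρ) + ∫ x, ψ₁ (T₁ x) ∂ρ := by
    rw [← integral_add i9 i8]
    apply integral_congr_ae
    filter_upwards [he₁] with x hx using hx.symm
  have e2 : (∫ x, inner ℝ x (T₀ x) ∂ρ) ≤ (∫ x, conj M ψ₁ x ∂ρ) + ∫ x, ψ₁ (T₀ x) ∂ρ := by
    rw [← integral_add i9 i7]
    apply integral_mono_ae i6 (i9.add i7)
    filter_upwards [hT₀M] with x hx
    have h1 := le_conj hψ₁ x hx
    show inner ℝ x (T₀ x) ≤ conj M ψ₁ x + ψ₁ (T₀ x)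
    linarith only [h1]
  rw [mul_sub]
  linarith only [key, e0, e1, e2, hw₀, hw₁]

/-- The Legendre transform is midpoint convex along `±u`. -/
theorem second_nonneg (hM : 0 ≤ M) {ψ : E d → ℝ} (hψ : Continuous ψ) (x u : E d) :
    0 ≤ conj M ψ (x + u) + conj M ψ (x - u) - 2 * conj M ψ x := by
  have h : conj M ψ x ≤ (conj M ψ (x + u) + conj M ψ (x - u)) / 2 := by
    apply conj_le hM
    intro y hy
    have h1 := le_conj hψ (x + u) hy
    have h2 := le_conj hψ (x - u) hy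
    rw [inner_add_left] at h1
    rw [inner_sub_left] at h2
    linarith only [h1, h2]
  linarith only [h]

/-- The integral of the second difference of the potential is quadratic in the step. -/
theorem second_diff (hM : 0 ≤ M) (hR : 0 ≤ R) {Λ : ℝ≥0} (hρ : ρ ≤ Λ • volume)
    (hρR : ρ (closedBall 0 R)ᶜ = 0) {ψ : E d → ℝ} (hψ : Continuous ψ) {u : E d}
    {h : ℝ} (hun : ‖u‖ = h) (h1 : h ≤ 1) :
    ∫ x, (conj M ψ (x + u) + conj M ψ (x - u) - 2 * conj M ψ x) ∂ρ ≤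
      Λ * (2 * M * (d * volume.real (closedBall (0 : E d) (R + 1)) / (R + 1))) * h ^ 2 := by
  have h0 : 0 ≤ h := hun ▸ norm_nonneg u
  set φ : E d → ℝ := conj M ψ with hφ
  have hφc : Continuous φ := continuous_conj hM hψ
  have hφL := lipschitzWith_conj hM hψ
  set Δ : E d → ℝ := fun x => φ (x + u) + φ (x - u) - 2 * φ x with hΔ
  have hΔc : Continuous Δ := by
    have c1 : Continuous fun x => φ (x + u) := hφc.comp (continuous_id.add continuous_const)
    have c2 : Continuous fun x => φ (x - u) := hφc.comp (continuous_id.sub continuous_const)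
    exact (c1.add c2).sub (continuous_const.mul hφc)
  have hΔ0 : ∀ x, 0 ≤ Δ x := fun x => second_nonneg hM hψ x u
  set B : Set (E d) := closedBall (0 : E d) R with hB
  set K : Set (E d) := closedBall (0 : E d) (R + 1) with hK
  have hBm : MeasurableSet B := measurableSet_closedBall
  have hKc : IsCompact K := isCompact_closedBall _ _
  have hρB : ρ.restrict B = ρ := by
    rw [Measure.restrict_eq_self_of_ae_mem]
    rw [ae_iff]
    exact hρR
  have hle : ρ ≤ (Λ • (volume : Measure (E d))).restrict B := by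
    calc ρ = ρ.restrict B := hρB.symm
      _ ≤ (Λ • (volume : Measure (E d))).restrict B := Measure.restrict_mono le_rfl hρ
  have hiB : IntegrableOn Δ B := hΔc.continuousOn.integrableOn_compact (isCompact_closedBall _ _)
  have s1 : ∫ x, Δ x ∂ρ ≤ Λ * ∫ x in B, Δ x := by
    have hi : Integrable Δ ((Λ • (volume : Measure (E d))).restrict B) := by
      rw [Measure.restrict_smul]
      exact Integrable.smul_measure_nnreal hiB
    refine (integral_mono_measure hle (ae_of_all _ hΔ0) hi).trans (le_of_eq ?_)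
    rw [Measure.restrict_smul, integral_smul_nnreal_measure]
    rfl
  have hBK : B ⊆ K ∩ {x | x + u ∈ K} := by
    intro x hx
    rw [hB, mem_closedBall_zero_iff] at hx
    refine ⟨?_, ?_⟩
    · rw [hK, mem_closedBall_zero_iff]; linarith only [hx]
    · show x + u ∈ K
      rw [hK, mem_closedBall_zero_iff]
      calc ‖x + u‖ ≤ ‖x‖ + ‖u‖ := norm_add_le _ _
        _ ≤ R + 1 := by linarith only [hx, h1, hun]
  have hKA : IntegrableOn Δ (K ∩ {x | x + u ∈ K}) :=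
    (hΔc.continuousOn.integrableOn_compact hKc).mono_set inter_subset_left
  have s2 : ∫ x in B, Δ x ≤ ∫ x in K ∩ {x | x + u ∈ K}, Δ x := by
    apply setIntegral_mono_set hKA (ae_of_all _ hΔ0) (Filter.Eventually.of_forall hBK)
  set g : E d → ℝ := fun x => φ x - φ (x - u) with hg
  have hgc : Continuous g := by
    have c2 : Continuous fun x => φ (x - u) := hφc.comp (continuous_id.sub continuous_const)
    exact hφc.sub c2
  have hgB : ∀ x, |g x| ≤ M * h := by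
    intro x
    have := hφL.dist_le_mul x (x - u)
    rw [Real.dist_eq, dist_eq_norm, sub_sub_cancel, hun, Real.coe_toNNReal M hM] at this
    exact this
  have s3 := Translate.shift_bound hKc (convex_closedBall 0 (R + 1)) (x0 := (0 : E d))
    (r := R + 1) (by linarith only [hR]) subset_rfl u (by rw [hun]; linarith only [h1, hR])
    (hgc.continuousOn.integrableOn_compact hKc) (ae_of_all _ hgB) (by positivity)
  have s4 : ∫ x in K ∩ {x | x + u ∈ K}, Δ x = ∫ x in K ∩ {x | x + u ∈ K}, (g (x + u) - g x) := by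
    apply integral_congr_ae
    filter_upwards with x
    simp only [hΔ, hg, add_sub_cancel_right]
    ring
  rw [hun] at s3
  calc ∫ x, Δ x ∂ρ ≤ Λ * ∫ x in B, Δ x := s1
    _ ≤ Λ * (2 * (M * h) * ((d * volume.real K / (R + 1)) * h)) := by
        apply mul_le_mul_of_nonneg_left _ Λ.coe_nonneg
        rw [← s4] at s3
        exact s2.trans s3
    _ = _ := by ring

/-- Comparison of the increments of the potential with the transport map. -/
theorem F_bound_w1 (hM : 0 ≤ M) (hρR : ρ (closedBall 0 R)ᶜ = 0)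
    {T₀ : E d → E d} (hT₀ : Measurable T₀)
    (hT₀M : ∀ᵐ x ∂ρ, T₀ x ∈ closedBall (0 : E d) M)
    {ψ₀ : E d → ℝ} (hψ₀ : Continuous ψ₀)
    (he₀ : ∀ᵐ x ∂ρ, conj M ψ₀ x + ψ₀ (T₀ x) = inner ℝ x (T₀ x))
    {u : E d} {G : E d → ℝ}
    (hGm : Measurable G) (hG0 : ∀ x, 0 ≤ G x) (hG2 : ∀ x, G x ≤ 2 * M) :
    ∫ x, (conj M ψ₀ (x + u) - conj M ψ₀ x) * G x ∂ρ ≤
      (∫ x, inner ℝ u (T₀ x) * G x ∂ρ) +
        2 * M * ∫ x, (conj M ψ₀ (x + u) + conj M ψ₀ (x - u) - 2 * conj M ψ₀ x) ∂ρ := by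
  have hGB : ∀ x, |G x| ≤ 2 * M := fun x => by rw [abs_of_nonneg (hG0 x)]; exact hG2 x
  have hc₀ := continuous_conj hM hψ₀
  have c1 : Continuous fun x => conj M ψ₀ (x + u) := hc₀.comp (continuous_id.add continuous_const)
  have c2 : Continuous fun x => conj M ψ₀ (x - u) := hc₀.comp (continuous_id.sub continuous_const)
  have i1 := integrable_mul_bdd ((integrable_cont hρR c1).sub (integrable_cont hρR hc₀)) hGm hGB
  have i2 := integrable_mul_bdd (integrable_inner hρR hT₀ hT₀M (f := fun _ => u)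
    continuous_const) hGm hGB
  have i3 : Integrable (fun x => 2 * M * (conj M ψ₀ (x + u) + conj M ψ₀ (x - u)
      - 2 * conj M ψ₀ x)) ρ :=
    (integrable_cont hρR ((c1.add c2).sub (continuous_const.mul hc₀))).const_mul _
  rw [← integral_const_mul, ← integral_add i2 i3]
  apply integral_mono_ae i1 (i2.add i3)
  filter_upwards [hT₀M, he₀] with x hx hx'
  have h1 := le_conj hψ₀ (x + u) hx
  have h2 := le_conj hψ₀ (x - u) hx
  rw [inner_add_left] at h1
  rw [inner_sub_left] at h2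
  have h3 := hG0 x
  have h4 := hG2 x
  show (conj M ψ₀ (x + u) - conj M ψ₀ x) * G x ≤ inner ℝ u (T₀ x) * G x +
    2 * M * (conj M ψ₀ (x + u) + conj M ψ₀ (x - u) - 2 * conj M ψ₀ x)
  set a := conj M ψ₀ (x + u)
  set b := conj M ψ₀ (x - u)
  set c := conj M ψ₀ x
  set v := inner ℝ u (T₀ x)
  have k1 : 0 ≤ a - c - v := by linarith only [h1, hx']
  have k2 : a - c - v ≤ a + b - 2 * c := by linarith only [h2, hx']
  have k3 : (a - c - v) * G x ≤ (a + b - 2 * c) * (2 * M) :=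
    mul_le_mul k2 h4 h3 (k1.trans k2)
  linarith only [k3]

/-- The gain along the map `G`. -/
theorem gain (hρR : ρ (closedBall 0 R)ᶜ = 0)
    {T₀ T₁ : E d → E d} (hT₀ : Measurable T₀) (hT₁ : Measurable T₁)
    (hT₀M : ∀ᵐ x ∂ρ, T₀ x ∈ closedBall (0 : E d) M)
    (hT₁M : ∀ᵐ x ∂ρ, T₁ x ∈ closedBall (0 : E d) M)
    {v : E d} {h : ℝ} (h0 : 0 < h) {G : E d → ℝ} (hGm : Measurable G)
    (hGB : ∀ x, |G x| ≤ 2 * M)
    (hGt : ∀ x, G x ^ 2 ≤ inner ℝ (T₁ x - T₀ x) v * G x) :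
    h * ∫ x, G x ^ 2 ∂ρ ≤ (∫ x, inner ℝ (h • v) (T₁ x) * G x ∂ρ) -
      ∫ x, inner ℝ (h • v) (T₀ x) * G x ∂ρ := by
  have iG2 : Integrable (fun x => G x ^ 2) ρ := by
    apply Integrable.of_bound (hGm.pow_const 2).aestronglyMeasurable ((2 * M) ^ 2)
    filter_upwards with x
    rw [Real.norm_eq_abs, abs_pow]
    exact pow_le_pow_left₀ (abs_nonneg _) (hGB x) 2
  have k0 := integrable_mul_bdd (integrable_inner hρR hT₀ hT₀M (f := fun _ => h • v)
    continuous_const) hGm hGB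
  have k1 := integrable_mul_bdd (integrable_inner hρR hT₁ hT₁M (f := fun _ => h • v)
    continuous_const) hGm hGB
  rw [← integral_sub k1 k0, ← integral_const_mul]
  apply integral_mono (iG2.const_mul h) (k1.sub k0)
  intro x
  show h * G x ^ 2 ≤ inner ℝ (h • v) (T₁ x) * G x - inner ℝ (h • v) (T₀ x) * G x
  have e : inner ℝ (h • v) (T₁ x) * G x - inner ℝ (h • v) (T₀ x) * G x =
      h * (inner ℝ (T₁ x - T₀ x) v * G x) := by
    have e1 : inner ℝ (T₁ x - T₀ x) v = inner ℝ v (T₁ x) - inner ℝ v (T₀ x) := by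
      rw [← inner_sub_right, real_inner_comm]
    rw [e1, real_inner_smul_left, real_inner_smul_left]
    ring
  rw [e]
  exact mul_le_mul_of_nonneg_left (hGt x) h0.le

/-- The bound in one direction, for a general source. -/
theorem dir_bound_w1 (hM : 0 ≤ M) (hR : 0 ≤ R) {Λ : ℝ≥0} (hρ : ρ ≤ Λ • volume)
    (hρR : ρ (closedBall 0 R)ᶜ = 0)
    {T₀ T₁ : E d → E d} (hT₀ : Measurable T₀) (hT₁ : Measurable T₁)
    (hT₀M : ∀ᵐ x ∂ρ, T₀ x ∈ closedBall (0 : E d) M)
    (hT₁M : ∀ᵐ x ∂ρ, T₁ x ∈ closedBall (0 : E d) M)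
    {ψ₀ ψ₁ : E d → ℝ} (hψ₀ : Continuous ψ₀) (hψ₁ : Continuous ψ₁)
    (he₀ : ∀ᵐ x ∂ρ, conj M ψ₀ x + ψ₀ (T₀ x) = inner ℝ x (T₀ x))
    (he₁ : ∀ᵐ x ∂ρ, conj M ψ₁ x + ψ₁ (T₁ x) = inner ℝ x (T₁ x))
    {w : ℝ} (hw₀ : ∫ x, ψ₀ (T₁ x) ∂ρ ≤ (∫ x, ψ₀ (T₀ x) ∂ρ) + w)
    (hw₁ : ∫ x, ψ₁ (T₀ x) ∂ρ ≤ (∫ x, ψ₁ (T₁ x) ∂ρ) + w)
    {v : E d} (hv : ‖v‖ = 1) {h : ℝ} (h0 : 0 < h) (h1 : h ≤ 1) :
    ∫ x, (max (inner ℝ (T₁ x - T₀ x) v) 0) ^ 2 ∂ρ ≤
      (2 * M * (Λ * (2 * M * (d * volume.real (closedBall (0 : E d) (R + 1)) / (R + 1))))) * h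
        + 2 * (2 * M + 1) * w / h := by
  set u : E d := h • v with hu
  have hun : ‖u‖ = h := by rw [hu, norm_smul, hv, mul_one, Real.norm_eq_abs, abs_of_pos h0]
  set t : E d → ℝ := fun x => inner ℝ (T₁ x - T₀ x) v with ht
  have htm : Measurable t := (hT₁.sub hT₀).inner_const
  have htb : ∀ᵐ x ∂ρ, |t x| ≤ 2 * M := by
    filter_upwards [hT₀M, hT₁M] with x h1 h2
    have h1' : ‖T₀ x‖ ≤ M := mem_closedBall_zero_iff.1 h1
    have h2' : ‖T₁ x‖ ≤ M := mem_closedBall_zero_iff.1 h2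
    calc |t x| ≤ ‖T₁ x - T₀ x‖ * ‖v‖ := abs_real_inner_le_norm _ _
      _ ≤ 2 * M := by
        rw [hv, mul_one]
        exact (norm_sub_le _ _).trans (by linarith only [h1', h2'])
  set G : E d → ℝ := fun x => min (max (t x) 0) (2 * M) with hG
  have hGm : Measurable G := (htm.max measurable_const).min measurable_const
  have hG0 : ∀ x, 0 ≤ G x := fun x => le_min (le_max_right _ _) (by positivity)
  have hG2 : ∀ x, G x ≤ 2 * M := fun x => min_le_right _ _
  have hGB : ∀ x, |G x| ≤ 2 * M := fun x => by rw [abs_of_nonneg (hG0 x)]; exact hG2 x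
  have hGt : ∀ x, G x ^ 2 ≤ inner ℝ (T₁ x - T₀ x) v * G x := by
    intro x
    show G x ^ 2 ≤ t x * G x
    rcases le_total (t x) 0 with htx | htx
    · have : G x = 0 := by
        show min (max (t x) 0) (2 * M) = 0
        rw [max_eq_right htx]; exact min_eq_left (by positivity)
      rw [this]; simp
    · have hle : G x ≤ t x := by
        show min (max (t x) 0) (2 * M) ≤ t x
        rw [max_eq_left htx]; exact min_le_left _ _
      nlinarith only [hle, hG0 x]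
  set s : ℝ := 1 / (2 * M + 1) with hs
  have hs0 : 0 < s := by positivity
  have hsG : ∀ x, s * G x ≤ 1 := by
    intro x
    have h3 : s * G x ≤ s * (2 * M + 1) :=
      mul_le_mul_of_nonneg_left ((hG2 x).trans (by linarith only [])) hs0.le
    have h4 : s * (2 * M + 1) = 1 := by rw [hs]; field_simp
    linarith only [h3, h4]
  have hchain := chain_w1 hM hρR hT₀ hT₁ hT₀M hT₁M hψ₀ hψ₁ he₀ he₁ hw₀ hw₁ (u := u) hGm hG0 hG2
    hs0 hsG
  have hF := F_bound_w1 (u := u) hM hρR hT₀ hT₀M hψ₀ he₀ hGm hG0 hG2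
  have hsd := second_diff hM hR hρ hρR hψ₀ hun h1
  have hJ := gain hρR hT₀ hT₁ hT₀M hT₁M h0 hGm hGB hGt
  rw [← hu] at hJ
  have hS : ∫ x, (max (t x) 0) ^ 2 ∂ρ = ∫ x, G x ^ 2 ∂ρ := by
    apply integral_congr_ae
    filter_upwards [htb] with x hx
    have : G x = max (t x) 0 := by
      apply min_eq_left
      exact max_le (abs_le.1 hx).2 (by positivity)
    rw [this]
  set c : ℝ := Λ * (2 * M * (d * volume.real (closedBall (0 : E d) (R + 1)) / (R + 1))) with hc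
  have hF2 : ∫ x, (conj M ψ₀ (x + u) - conj M ψ₀ x) * G x ∂ρ ≤
      (∫ x, inner ℝ u (T₀ x) * G x ∂ρ) + 2 * M * (c * h ^ 2) :=
    hF.trans (add_le_add le_rfl (mul_le_mul_of_nonneg_left hsd (by positivity)))
  show ∫ x, (max (t x) 0) ^ 2 ∂ρ ≤ (2 * M * c) * h + 2 * (2 * M + 1) * w / h
  rw [hS]
  set S : ℝ := ∫ x, G x ^ 2 ∂ρ with hSdef
  have hfin : s * (h * S - 2 * M * (c * h ^ 2)) ≤ 2 * w := by
    refine le_trans (mul_le_mul_of_nonneg_left ?_ hs0.le) hchain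
    linarith only [hJ, hF2]
  have hs1 : (2 * M + 1) * s = 1 := by rw [hs]; field_simp
  have hfin2 : h * S - 2 * M * (c * h ^ 2) ≤ 2 * (2 * M + 1) * w := by
    have h5 := mul_le_mul_of_nonneg_left hfin (by positivity : 0 ≤ 2 * M + 1)
    rw [← mul_assoc, hs1, one_mul] at h5
    linarith only [h5]
  have hfin3 : h * S ≤ h * ((2 * M * c) * h + 2 * (2 * M + 1) * w / h) := by
    have e : h * ((2 * M * c) * h + 2 * (2 * M + 1) * w / h) =
        2 * M * (c * h ^ 2) + 2 * (2 * M + 1) * w := by field_simp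
    rw [e]
    linarith only [hfin2]
  exact le_of_mul_le_mul_left hfin3 h0

/-- The bound for the whole difference, by summing over the coordinates. -/
theorem full_bound {T₀ T₁ : E d → E d} (hM : 0 ≤ M)
    (hT₀ : Measurable T₀) (hT₁ : Measurable T₁)
    (hT₀M : ∀ᵐ x ∂ρ, T₀ x ∈ closedBall (0 : E d) M)
    (hT₁M : ∀ᵐ x ∂ρ, T₁ x ∈ closedBall (0 : E d) M) {B : ℝ}
    (hB : ∀ v : E d, ‖v‖ = 1 → ∫ x, (max (inner ℝ (T₁ x - T₀ x) v) 0) ^ 2 ∂ρ ≤ B) :
    ∫ x, ‖T₁ x - T₀ x‖ ^ 2 ∂ρ ≤ 2 * d * B := by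
  have hi : ∀ v : E d, ‖v‖ = 1 →
      Integrable (fun x => (max (inner ℝ (T₁ x - T₀ x) v) 0) ^ 2) ρ := by
    intro v hv
    apply Integrable.of_bound
      ((((hT₁.sub hT₀).inner_const).max measurable_const).pow_const 2).aestronglyMeasurable
      ((2 * M) ^ 2)
    filter_upwards [hT₀M, hT₁M] with x h1 h2
    have h1' : ‖T₀ x‖ ≤ M := mem_closedBall_zero_iff.1 h1
    have h2' : ‖T₁ x‖ ≤ M := mem_closedBall_zero_iff.1 h2
    have h3 : |inner ℝ (T₁ x - T₀ x) v| ≤ 2 * M := by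
      calc |inner ℝ (T₁ x - T₀ x) v| ≤ ‖T₁ x - T₀ x‖ * ‖v‖ := abs_real_inner_le_norm _ _
        _ ≤ 2 * M := by
          rw [hv, mul_one]
          exact (norm_sub_le _ _).trans (by linarith)
    show ‖(max (inner ℝ (T₁ x - T₀ x) v) 0) ^ 2‖ ≤ (2 * M) ^ 2
    rw [Real.norm_eq_abs, abs_pow]
    apply pow_le_pow_left₀ (abs_nonneg _)
    rw [abs_of_nonneg (le_max_right _ _)]
    exact max_le ((le_abs_self _).trans h3) (by positivity)
  have hn1 : ∀ i : Fin d, ‖(EuclideanSpace.single i (1 : ℝ) : E d)‖ = 1 := by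
    intro i
    simp
  have hn2 : ∀ i : Fin d, ‖-(EuclideanSpace.single i (1 : ℝ) : E d)‖ = 1 := by
    intro i
    rw [norm_neg]; exact hn1 i
  have hkey : ∀ y : E d, ‖y‖ ^ 2 = ∑ i : Fin d,
      ((max (inner ℝ y (EuclideanSpace.single i (1 : ℝ))) 0) ^ 2 +
        (max (inner ℝ y (-(EuclideanSpace.single i (1 : ℝ)))) 0) ^ 2) := by
    intro y
    rw [EuclideanSpace.real_norm_sq_eq]
    apply Finset.sum_congr rfl
    intro i _
    have e : inner ℝ y (EuclideanSpace.single i (1 : ℝ)) = y i := by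
      rw [EuclideanSpace.inner_single_right]; simp
    rw [inner_neg_right, e]
    rcases le_total (y i) 0 with h | h
    · rw [max_eq_right h, max_eq_left (by linarith only [h])]; ring
    · rw [max_eq_left h, max_eq_right (by linarith)]; ring
  have e1 : ∫ x, ‖T₁ x - T₀ x‖ ^ 2 ∂ρ = ∑ i : Fin d,
      ((∫ x, (max (inner ℝ (T₁ x - T₀ x) (EuclideanSpace.single i (1 : ℝ))) 0) ^ 2 ∂ρ) +
        ∫ x, (max (inner ℝ (T₁ x - T₀ x) (-(EuclideanSpace.single i (1 : ℝ)))) 0) ^ 2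
          ∂ρ) := by
    have : ∀ x, ‖T₁ x - T₀ x‖ ^ 2 = ∑ i : Fin d,
      ((max (inner ℝ (T₁ x - T₀ x) (EuclideanSpace.single i (1 : ℝ))) 0) ^ 2 +
        (max (inner ℝ (T₁ x - T₀ x) (-(EuclideanSpace.single i (1 : ℝ)))) 0) ^ 2) :=
      fun x => hkey _
    simp_rw [this]
    rw [integral_finsetSum]
    · apply Finset.sum_congr rfl
      intro i _
      exact integral_add (hi _ (hn1 i)) (hi _ (hn2 i))
    · intro i _
      exact (hi _ (hn1 i)).add (hi _ (hn2 i))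
  rw [e1]
  calc _ ≤ ∑ _i : Fin d, (B + B) :=
        Finset.sum_le_sum fun i _ => add_le_add (hB _ (hn1 i)) (hB _ (hn2 i))
    _ = 2 * d * B := by
      rw [Finset.sum_const, Finset.card_univ, Fintype.card_fin, nsmul_eq_mul]; ring

/-- The trivial bound in one direction. -/
theorem dir_trivial {T₀ T₁ : E d → E d} (hM : 0 ≤ M)
    (hT₀M : ∀ᵐ x ∂ρ, T₀ x ∈ closedBall (0 : E d) M)
    (hT₁M : ∀ᵐ x ∂ρ, T₁ x ∈ closedBall (0 : E d) M) {v : E d} (hv : ‖v‖ = 1) :
    ∫ x, (max (inner ℝ (T₁ x - T₀ x) v) 0) ^ 2 ∂ρ ≤ 4 * M ^ 2 := by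
  have hle : ∫ x, (max (inner ℝ (T₁ x - T₀ x) v) 0) ^ 2 ∂ρ ≤
      ∫ _x, 4 * M ^ 2 ∂ρ := by
    apply integral_mono_of_nonneg (ae_of_all _ fun x => sq_nonneg _) (integrable_const _)
    filter_upwards [hT₀M, hT₁M] with x h1 h2
    have h1' : ‖T₀ x‖ ≤ M := mem_closedBall_zero_iff.1 h1
    have h2' : ‖T₁ x‖ ≤ M := mem_closedBall_zero_iff.1 h2
    have h3 : inner ℝ (T₁ x - T₀ x) v ≤ 2 * M := by
      calc inner ℝ (T₁ x - T₀ x) v ≤ ‖T₁ x - T₀ x‖ * ‖v‖ := real_inner_le_norm _ _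
        _ ≤ 2 * M := by
          rw [hv, mul_one]
          exact (norm_sub_le _ _).trans (by linarith only [h1', h2'])
    have h4 : 0 ≤ max (inner ℝ (T₁ x - T₀ x) v) 0 := le_max_right _ _
    have h5 : max (inner ℝ (T₁ x - T₀ x) v) 0 ≤ 2 * M := max_le h3 (by positivity)
    show (max (inner ℝ (T₁ x - T₀ x) v) 0) ^ 2 ≤ 4 * M ^ 2
    nlinarith only [h5, h4]
  refine hle.trans (le_of_eq ?_)
  rw [integral_const, probReal_univ, one_smul]

end General

/-- Optimisation of the scale: `D ≤ a h + b W / h^p` for all small `h`. -/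
theorem optimise {D W a b c r p : ℝ} (hp : 0 < p) (hr : 0 < r) (hW : 0 ≤ W) (ha : 0 ≤ a)
    (hb : 0 ≤ b) (hc : 0 ≤ c)
    (hD : ∀ h : ℝ, 0 < h → h ≤ r → D ≤ a * h + b * (W / h ^ p)) (hDc : D ≤ c) :
    D ≤ (a + b + c / r) * W ^ (1 / (p + 1)) := by
  set w := W ^ (1 / (p + 1)) with hw
  have hw0 : 0 ≤ w := Real.rpow_nonneg hW _
  have hp1 : p + 1 ≠ 0 := by linarith
  have hw3 : w ^ (p + 1) = W := by
    rw [hw, ← Real.rpow_mul hW, one_div, inv_mul_cancel₀ hp1, Real.rpow_one]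
  have hcr : 0 ≤ c / r := by positivity
  rcases hw0.eq_or_lt with h0 | h0
  · rw [← h0, mul_zero]
    have hW0 : W = 0 := by
      rw [← hw3, ← h0]
      exact Real.zero_rpow hp1
    by_contra hcon
    have hD0 : 0 < D := not_le.1 hcon
    have hpos : 0 < min r (D / (2 * (a + 1))) := lt_min hr (by positivity)
    have h1 := hD _ hpos (min_le_left _ _)
    rw [hW0, zero_div, mul_zero, add_zero] at h1
    have h2 : a * min r (D / (2 * (a + 1))) ≤ a * (D / (2 * (a + 1))) :=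
      mul_le_mul_of_nonneg_left (min_le_right _ _) ha
    have h3 : a * (D / (2 * (a + 1))) ≤ D / 2 := by
      rw [mul_div_assoc', div_le_div_iff₀ (by positivity) (by norm_num)]
      nlinarith only [hcon]
    linarith only [hcon, h1, h2, h3]
  · rcases le_total w r with hwr | hwr
    · have h1 := hD w h0 hwr
      have h2 : W / w ^ p = w := by
        rw [← hw3, Real.rpow_add h0, Real.rpow_one]
        field_simp
      rw [h2] at h1
      nlinarith only [h1, hcr, h0]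
    · have h1 : c ≤ c / r * w := by
        rw [div_mul_eq_mul_div, le_div_iff₀ hr]
        exact mul_le_mul_of_nonneg_left hwr hc
      nlinarith only [hDc, h1, ha, h0, hb]

end Vale.Agent.P074.H109
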