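import Vale.Agent.P074.H109.Convex

open MeasureTheory Set Metric
open scoped ENNReal NNReal RealInnerProductSpace

namespace Vale.Agent.P074.H109

variable {d : ℕ}

/-- Existence of optimal maps for absolutely continuous sources with bounded support. -/
theorem exists_optimalMap {ρ : Measure (E d)} [IsProbabilityMeasure ρ] {R M : ℝ} (hR : 0 ≤ R)
    (hM : 0 ≤ M) (hρac : ρ ≪ volume) (hρR : ρ (closedBall 0 R)ᶜ = 0)
    {μ : Measure (E d)} (hμ : IsProbabilityMeasure μ) (hμM : μ (closedBall 0 M)ᶜ = 0) :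
    ∃ T : E d → E d, IsOptimalMap ρ μ T := by
  obtain ⟨ψ, T, hψL, hTm, hTB, hTmap, hTae⟩ := exists_optimal (R := R) (M := M) hR hM ρ μ
    (by rw [measure_univ, measure_univ]) hρac hρR hμM
  have hψ := hψL.continuous
  have hc := continuous_conj hM hψ
  refine ⟨T, ?_⟩
  obtain ⟨A, hA⟩ := (isCompact_closedBall (0 : E d) R).exists_bound_of_continuousOn
    (f := fun x => ‖x‖ ^ 2 - 2 * conj M ψ x)
    ((continuous_norm.pow 2).sub (continuous_const.mul hc)).continuousOn
  obtain ⟨B, hB⟩ := (isCompact_closedBall (0 : E d) M).exists_bound_of_continuousOn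
    (f := fun x => ‖x‖ ^ 2 - 2 * ψ x)
    ((continuous_norm.pow 2).sub (continuous_const.mul hψ)).continuousOn
  have h := isOptimalMap_of_dual ρ T hTm (closedBall 0 M) measurableSet_closedBall hTB
    (fun x => ‖x‖ ^ 2 - 2 * conj M ψ x) (fun y => ‖y‖ ^ 2 - 2 * ψ y)
    ((continuous_norm.pow 2).sub (continuous_const.mul hc)).measurable
    ((continuous_norm.pow 2).sub (continuous_const.mul hψ)).measurable A B
    (by
      filter_upwards [ae_mem_ball hρR] with x hx
      have := hA x hx
      rw [Real.norm_eq_abs] at this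
      exact (abs_le.1 this).1)
    (by
      intro y hy
      have := hB y hy
      rw [Real.norm_eq_abs] at this
      exact (abs_le.1 this).1)
    (by
      intro x y hy
      have h1 := le_conj hψ x hy
      rw [norm_sub_sq_real]
      linarith only [h1])
    (by
      filter_upwards [hTae] with x hx
      rw [norm_sub_sq_real]
      linarith only [hx])
  rwa [hTmap] at h

/-- The whole result. -/
theorem main (d : ℕ) (hd : 2 ≤ d) :
    IsGreatest {α : ℝ | 0 < α ∧ α ≤ 1 ∧ Admissible d α} (1 / 3) ∧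
    (∀ p : ℝ, 1 ≤ p → p ≤ 2 → ∀ K Y : Set (E d), IsCompact K → Convex ℝ K →
      (interior K).Nonempty → IsCompact Y →
      (∃ C : ℝ≥0, StabilityEstimate (unif K) Y p (p / (2 * (p + 1))) C) ∧
      ((interior Y).Nonempty → ∀ α : ℝ, 0 ≤ α →
        (∃ C : ℝ≥0, StabilityEstimate (unif K) Y p α C) → α ≤ p / (2 * (p + 1)))) ∧
    (∀ (Λ : ℝ≥0) (R : ℝ) (Y : Set (E d)), IsCompact Y → ∃ C : ℝ≥0, ∀ ρ : Measure (E d),
      IsProbabilityMeasure ρ → ρ ≤ Λ • volume → ρ (closedBall 0 R)ᶜ = 0 →
        (∀ μ : Measure (E d), IsProbabilityMeasure μ → μ Yᶜ = 0 →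
          ∃ T : E d → E d, IsOptimalMap ρ μ T) ∧
        StabilityEstimate ρ Y 1 (1 / 4) C) := by
  refine ⟨isGreatest_third d hd, ?_, ?_⟩
  · intro p hp1 hp2 K Y hK hKc hKi hY
    refine ⟨stability_conv hK hKc hKi hY hp1 hp2, ?_⟩
    rintro hYi α hα ⟨C, hC⟩
    exact stability_exponent_le hd hK hKi hY hYi (by linarith only [hp1]) hα hC
  · intro Λ R Y hY
    obtain ⟨C, hC⟩ := stability_w1 d Λ R hY
    obtain ⟨M, hM, hYM⟩ := hY.isBounded.exists_pos_norm_le
    have hYM' : Y ⊆ closedBall 0 M := fun x hx => by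
      simpa only [mem_closedBall, dist_zero_right] using hYM x hx
    refine ⟨C, fun ρ hprob hρ hρR => ⟨?_, hC ρ hprob hρ hρR⟩⟩
    intro μ hμ hμY
    have hρac : ρ ≪ volume :=
      (Measure.absolutelyContinuous_of_le hρ).trans (Measure.smul_absolutelyContinuous)
    have hρR' : ρ (closedBall 0 (max R 0))ᶜ = 0 :=
      measure_mono_null (compl_subset_compl.2 (closedBall_subset_closedBall (le_max_left _ _)))
        hρR
    exact exists_optimalMap (le_max_right R 0) hM.le hρac hρR' hμ
      (measure_mono_null (compl_subset_compl.2 hYM') hμY)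

end Vale.Agent.P074.H109
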